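import Mathlib

/-! Finite Ramsey theorem for increasing tuples of natural numbers. -/

namespace Vale.Agent.Lib.P058R

/-- The finite Ramsey statement for `c`-tuples. -/
def RamseyStmt (c : ℕ) : Prop :=
  ∀ (κ : Type) [Finite κ] (m : ℕ), ∃ N : ℕ, ∀ χ : (Fin c → ℕ) → κ,
    ∃ H : Fin m → ℕ, StrictMono H ∧ (∀ i, H i < N) ∧
      ∀ φ ψ : Fin c → Fin m, StrictMono φ → StrictMono ψ → χ (H ∘ φ) = χ (H ∘ ψ)

lemma ramsey_zero : RamseyStmt 0 := by
  intro κ _ m
  refine ⟨m, fun χ => ⟨fun i => i.val, fun a b h => h, fun i => i.isLt, fun φ ψ _ _ => ?_⟩⟩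
  congr 1
  funext i
  exact i.elim0

/-- End-homogeneous sequences. -/
lemma endHom {c : ℕ} (hc : RamseyStmt c) (κ : Type) [Finite κ] (M : ℕ) :
    ∃ N : ℕ, ∀ χ : (Fin (c + 1) → ℕ) → κ,
      ∃ H : Fin M → ℕ, StrictMono H ∧ (∀ i, H i < N) ∧ ∃ col : Fin M → κ,
        ∀ φ : Fin (c + 1) → Fin M, StrictMono φ → χ (H ∘ φ) = col (φ 0) := by
  induction M with
  | zero =>
    refine ⟨0, fun χ => ⟨fun i => i.elim0, fun a => a.elim0, fun i => i.elim0, fun i => i.elim0,
      fun φ _ => (φ 0).elim0⟩⟩
  | succ M ih =>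
    obtain ⟨N', hN'⟩ := ih
    obtain ⟨N'', hN''⟩ := hc κ N'
    refine ⟨N'' + 1, fun χ => ?_⟩
    -- colouring of `c`-tuples: prepend position `0`, shift the rest
    let χ₀ : (Fin c → ℕ) → κ := fun ψ => χ (Fin.cons 0 (fun i => ψ i + 1))
    obtain ⟨H₁, hH₁, hH₁lt, hH₁hom⟩ := hN'' χ₀
    -- extension of `H₁` to all naturals
    let h : ℕ → ℕ := fun n => if hn : n < N' then H₁ ⟨n, hn⟩ else 0
    have hh : ∀ (i : Fin N'), h i = H₁ i := by
      intro i
      simp only [h, dif_pos i.isLt]
    let χ' : (Fin (c + 1) → ℕ) → κ := fun ξ => χ (fun i => h (ξ i) + 1)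
    obtain ⟨H₂, hH₂, hH₂lt, col', hcol'⟩ := hN' χ'
    -- `κ` is inhabited
    have hκ : Nonempty κ := ⟨χ (fun _ => 0)⟩
    classical
    -- the colour of position `0`
    let c₀ : κ := if hex : ∃ φ₀ : Fin c → Fin N', StrictMono φ₀ then χ₀ (H₁ ∘ hex.choose)
      else hκ.some
    have hc₀ : ∀ φ : Fin c → Fin N', StrictMono φ → χ₀ (H₁ ∘ φ) = c₀ := by
      intro φ hφ
      have hex : ∃ φ₀ : Fin c → Fin N', StrictMono φ₀ := ⟨φ, hφ⟩
      simp only [c₀, dif_pos hex]
      exact hH₁hom _ _ hφ hex.choose_spec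
    let H : Fin (M + 1) → ℕ := Fin.cons 0 (fun i => H₁ ⟨H₂ i, hH₂lt i⟩ + 1)
    refine ⟨H, ?_, ?_, Fin.cons c₀ col', ?_⟩
    · -- strict monotonicity
      intro a b hab
      have hb : b ≠ 0 := by
        intro hb0
        rw [hb0] at hab
        exact absurd hab (Fin.not_lt_zero _)
      obtain ⟨b', rfl⟩ := Fin.exists_succ_eq.mpr hb
      refine Fin.cases ?_ (fun a' hab' => ?_) a hab
      · intro _
        simp [H]
      · have hab'' : a' < b' := Fin.succ_lt_succ_iff.mp hab'
        simp only [H, Fin.cons_succ]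
        have hlt : (⟨H₂ a', hH₂lt _⟩ : Fin N') < ⟨H₂ b', hH₂lt _⟩ :=
          Fin.mk_lt_mk.mpr (hH₂ hab'')
        have := hH₁ hlt
        omega
    · intro i
      refine Fin.cases ?_ (fun j => ?_) i
      · simp [H]
      · simp only [H, Fin.cons_succ]
        have := hH₁lt ⟨H₂ j, hH₂lt j⟩
        omega
    · intro φ hφ
      by_cases h0 : φ 0 = 0
      · -- first coordinate at position `0`
        have hne : ∀ i : Fin c, φ i.succ ≠ 0 := by
          intro i hi
          have : φ 0 < φ i.succ := hφ (Fin.succ_pos i)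
          rw [hi] at this
          exact absurd this (Fin.not_lt_zero _)
        let φ' : Fin c → Fin M := fun i => (φ i.succ).pred (hne i)
        have hφ' : StrictMono φ' := by
          intro a b hab
          have : φ a.succ < φ b.succ := hφ (Fin.succ_lt_succ_iff.mpr hab)
          exact Fin.pred_lt_pred_iff.mpr this
        let φ'' : Fin c → Fin N' := fun i => ⟨H₂ (φ' i), hH₂lt _⟩
        have hφ'' : StrictMono φ'' := by
          intro a b hab
          exact Fin.mk_lt_mk.mpr (hH₂ (hφ' hab))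
        have key := hc₀ φ'' hφ''
        have e : H ∘ φ = Fin.cons 0 (fun i => (H₁ ∘ φ'') i + 1) := by
          funext i
          refine Fin.cases ?_ (fun j => ?_) i
          · simp [H, h0]
          · simp only [Function.comp, Fin.cons_succ, H]
            have : φ j.succ = (φ' j).succ := by simp [φ']
            rw [this, Fin.cons_succ]
        rw [e, h0, Fin.cons_zero]
        exact key
      · -- all coordinates above `0`
        have hne : ∀ i : Fin (c + 1), φ i ≠ 0 := by
          intro i hi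
          apply h0
          have : φ 0 ≤ φ i := hφ.monotone (Fin.zero_le i)
          rw [hi] at this
          exact Fin.le_zero_iff.mp this
        let φ' : Fin (c + 1) → Fin M := fun i => (φ i).pred (hne i)
        have hφ' : StrictMono φ' := by
          intro a b hab
          exact Fin.pred_lt_pred_iff.mpr (hφ hab)
        have key := hcol' φ' hφ'
        have e : H ∘ φ = (fun i => h ((H₂ ∘ φ') i) + 1) := by
          funext i
          have : φ i = (φ' i).succ := by simp [φ']
          simp only [Function.comp, H]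
          rw [this, Fin.cons_succ]
          have := hh ⟨H₂ (φ' i), hH₂lt _⟩
          simp only at this
          rw [this]
        rw [e]
        have e2 : φ 0 = (φ' 0).succ := by simp [φ']
        rw [e2, Fin.cons_succ]
        exact key

theorem ramsey_all (c : ℕ) : RamseyStmt c := by
  induction c with
  | zero => exact ramsey_zero
  | succ c ih =>
    intro κ _ m
    classical
    have := Fintype.ofFinite κ
    obtain ⟨N, hN⟩ := endHom ih κ (Fintype.card κ * m + 1)
    refine ⟨N, fun χ => ?_⟩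
    obtain ⟨H, hH, hHlt, col, hcol⟩ := hN χ
    obtain ⟨y, hy⟩ := Fintype.exists_lt_card_fiber_of_mul_lt_card (f := col)
      (n := m) (by simp)
    let S : Finset (Fin (Fintype.card κ * m + 1)) := Finset.univ.filter (fun x => col x = y)
    have hS : m ≤ S.card := le_of_lt hy
    let emb : Fin m → Fin (Fintype.card κ * m + 1) :=
      fun i => S.orderEmbOfFin rfl (Fin.castLE hS i)
    have hemb : StrictMono emb := by
      intro a b hab
      exact (S.orderEmbOfFin rfl).strictMono (by simpa using hab)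
    have hcolemb : ∀ i, col (emb i) = y := by
      intro i
      have : emb i ∈ S := Finset.orderEmbOfFin_mem S rfl _
      simpa [S] using this
    refine ⟨H ∘ emb, hH.comp hemb, fun i => hHlt _, fun φ ψ hφ hψ => ?_⟩
    have e1 : χ ((H ∘ emb) ∘ φ) = col (emb (φ 0)) := hcol (emb ∘ φ) (hemb.comp hφ)
    have e2 : χ ((H ∘ emb) ∘ ψ) = col (emb (ψ 0)) := hcol (emb ∘ ψ) (hemb.comp hψ)
    rw [e1, e2, hcolemb, hcolemb]

end Vale.Agent.Lib.P058R
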