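import Mathlib
import Vale.Agent.Lib.P058R.Ramsey

/-! Partition-Ramsey framework. -/

namespace Vale.Agent.Lib.P058R

open Finset

/-- Squared Euclidean distance between real vectors. -/
def sq {ι : Type} [Fintype ι] (x y : ι → ℝ) : ℝ := ∑ i, (x i - y i) ^ 2

lemma sq_self {ι : Type} [Fintype ι] (x : ι → ℝ) : sq x x = 0 := by simp [sq]

lemma sq_neg {ι : Type} [Fintype ι] (x y : ι → ℝ) : sq (-x) (-y) = sq x y := by
  unfold sq
  refine Finset.sum_congr rfl (fun i _ => ?_)
  simp only [Pi.neg_apply]
  ring

lemma sq_sumElim {ι ι' : Type} [Fintype ι] [Fintype ι'] (x x' : ι → ℝ) (y y' : ι' → ℝ) :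
    sq (Sum.elim x y) (Sum.elim x' y') = sq x x' + sq y y' := by
  simp [sq, Fintype.sum_sum_type]

/-- Partition-Ramsey property: for every finite colour type there are a finite configuration
`W` such that every colouring has a copy of the distance data `d2` on which the colour only
depends on the value of `π`. -/
def PR {S Sig : Type} (d2 : S → S → ℝ) (π : S → Sig) : Prop :=
  ∀ (κ : Type) [Finite κ], ∃ (ι : Type) (_ : Fintype ι) (W : Set (ι → ℝ)), W.Finite ∧
    ∀ c : (ι → ℝ) → κ, ∃ f : S → ι → ℝ, (∀ s, f s ∈ W) ∧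
      (∀ s t, sq (f s) (f t) = d2 s t) ∧ ∀ s t, π s = π t → c (f s) = c (f t)

/-- Coarsening of the class function. -/
lemma PR.mono {S Sig Sig' : Type} {d2 : S → S → ℝ} {π : S → Sig} {ρ : S → Sig'}
    (h : PR d2 π) (hρ : ∀ s t, ρ s = ρ t → π s = π t) : PR d2 ρ := by
  intro κ _
  obtain ⟨ι, hι, W, hW, hc⟩ := h κ
  refine ⟨ι, hι, W, hW, fun c => ?_⟩
  obtain ⟨f, h1, h2, h3⟩ := hc c
  exact ⟨f, h1, h2, fun s t hst => h3 s t (hρ s t hst)⟩

/-- Rewriting the distance data. -/
lemma PR.congr_d2 {S Sig : Type} {d2 d2' : S → S → ℝ} {π : S → Sig}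
    (h : PR d2 π) (hd : ∀ s t, d2 s t = d2' s t) : PR d2' π := by
  have : d2 = d2' := by funext s t; exact hd s t
  rw [← this]; exact h

/-- Any finite configuration has the trivial partition property. -/
lemma PR.base {S ι : Type} [Finite S] [Fintype ι] (e : S → ι → ℝ) :
    PR (fun s t => sq (e s) (e t)) (fun s => s) := by
  intro κ _
  refine ⟨ι, inferInstance, Set.range e, Set.finite_range e, fun c => ?_⟩
  refine ⟨e, fun s => ⟨s, rfl⟩, fun s t => rfl, ?_⟩
  intro s t h
  have h' : s = t := h
  rw [h']

lemma PR.self_zero {S Sig : Type} {d2 : S → S → ℝ} {π : S → Sig} (h : PR d2 π) (s : S) :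
    d2 s s = 0 := by
  obtain ⟨ι, hι, W, _, hc⟩ := h PUnit
  obtain ⟨f, _, h2, _⟩ := hc (fun _ => PUnit.unit)
  rw [← h2 s s]
  exact sq_self _

/-- The product form of the partition property. -/
theorem PR.prod {S Sig : Type} [Finite S] {d2 : S → S → ℝ} {π : S → Sig} (h : PR d2 π)
    (N : ℕ) : ∀ (κ : Type) [Finite κ], ∃ (ι : Type) (_ : Fintype ι) (W : Set (ι → ℝ)), W.Finite ∧
      ∀ c : (ι → ℝ) → κ, ∃ P : (Fin N → S) → ι → ℝ, (∀ v, P v ∈ W) ∧
        (∀ v w, sq (P v) (P w) = ∑ l, d2 (v l) (w l)) ∧
        ∀ v w, (∀ l, π (v l) = π (w l)) → c (P v) = c (P w) := by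
  induction N with
  | zero =>
    intro κ _
    refine ⟨PEmpty, inferInstance, {fun _ => 0}, Set.finite_singleton _, fun c => ?_⟩
    refine ⟨fun _ => fun _ => 0, fun _ => rfl, fun v w => by simp [sq], fun v w _ => rfl⟩
  | succ N ih =>
    intro κ _
    obtain ⟨ι₀, hι₀, W₀, hW₀, hc₀⟩ := ih (S → κ)
    have hWfin : Finite W₀ := hW₀.to_subtype
    obtain ⟨ι₁, hι₁, W₁, hW₁, hc₁⟩ := h (W₀ → κ)
    refine ⟨ι₀ ⊕ ι₁, inferInstance,
      (fun p : (ι₀ → ℝ) × (ι₁ → ℝ) => Sum.elim p.1 p.2) '' (W₀ ×ˢ W₁),
      (hW₀.prod hW₁).image _, fun c => ?_⟩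
    -- the outer colouring
    obtain ⟨f, hf1, hf2, hf3⟩ := hc₁ (fun y x => c (Sum.elim x.1 y))
    -- the inner colouring
    obtain ⟨P, hP1, hP2, hP3⟩ := hc₀ (fun x s => c (Sum.elim x (f s)))
    refine ⟨fun v => Sum.elim (P (fun l => v l.succ)) (f (v 0)), fun v => ?_, fun v w => ?_,
      fun v w hvw => ?_⟩
    · exact ⟨(P (fun l => v l.succ), f (v 0)), ⟨hP1 _, hf1 _⟩, rfl⟩
    · rw [sq_sumElim, hP2, hf2, Fin.sum_univ_succ, add_comm]
    · have e1 := congrFun (hP3 (fun l => v l.succ) (fun l => w l.succ) (fun l => hvw l.succ)) (v 0)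
      have e2 := congrFun (hf3 (v 0) (w 0) (hvw 0)) ⟨P (fun l => w l.succ), hP1 _⟩
      exact e1.trans e2

/-- Extension of a vector by a fixed padding value. -/
def extv {Sig : Type} (c : ℕ) (v : Fin c → Sig) (b : Sig) (j : ℕ) : Sig :=
  if h : j < c then v ⟨j, h⟩ else b

/-- The padding lemma: the non-`b` entries of `v` (in order), followed by padding, can be read
along a strictly increasing selection of positions in `2 * c`, with only `b` left behind. -/
lemma padding {Sig : Type} [DecidableEq Sig] (c : ℕ) (v : Fin c → Sig) (b : Sig) :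
    ∃ φ : Fin c → Fin (2 * c), StrictMono φ ∧
      (∀ j : Fin (2 * c), j ∉ Set.range φ → extv c v b j = b) ∧
      List.ofFn (fun j => extv c v b (φ j)) =
        (List.ofFn v).filter (· ≠ b) ++
          List.replicate (c - ((List.ofFn v).filter (· ≠ b)).length) b := by
  set L : List (Fin c) := (List.finRange c).filter (fun i => v i ≠ b) with hL
  have hLlen : L.length ≤ c := by
    have := List.length_filter_le (fun i => decide (v i ≠ b)) (List.finRange c)
    simpa [hL] using this
  set pad : List ℕ := L.map (fun i => i.val) ++ (List.range (c - L.length)).map (fun k => c + k)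
    with hpad
  have hpadlen : pad.length = c := by
    simp only [hpad, List.length_append, List.length_map, List.length_range]
    omega
  have hmemL : ∀ x ∈ L.map (fun i : Fin c => i.val), x < c := by
    intro x hx
    obtain ⟨i, _, rfl⟩ := List.mem_map.mp hx
    exact i.isLt
  have hmemR : ∀ x ∈ (List.range (c - L.length)).map (fun k => c + k), c ≤ x ∧ x < 2 * c := by
    intro x hx
    obtain ⟨k, hk, rfl⟩ := List.mem_map.mp hx
    have := List.mem_range.mp hk
    omega
  have hsorted : pad.Pairwise (· < ·) := by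
    rw [hpad, List.pairwise_append]
    refine ⟨?_, ?_, ?_⟩
    · rw [List.pairwise_map]
      exact List.Pairwise.filter _ (List.pairwise_lt_finRange c)
    · rw [List.pairwise_map]
      refine (List.pairwise_lt_range).imp ?_
      intro a b hab
      omega
    · intro x hx y hy
      have h1 := hmemL x hx
      have h2 := (hmemR y hy).1
      omega
  have hlt : ∀ (j : ℕ) (hj : j < pad.length), pad[j] < 2 * c := by
    intro j hj
    have hm : pad[j] ∈ pad := List.getElem_mem hj
    rcases List.mem_append.mp hm with h | h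
    · have := hmemL _ h
      omega
    · exact (hmemR _ h).2
  let φ : Fin c → Fin (2 * c) := fun j => ⟨pad[j.val]'(by rw [hpadlen]; exact j.isLt), hlt _ _⟩
  refine ⟨φ, ?_, ?_, ?_⟩
  · intro i j hij
    have := List.pairwise_iff_getElem.mp hsorted i.val j.val (by rw [hpadlen]; exact i.isLt)
      (by rw [hpadlen]; exact j.isLt) hij
    exact this
  · intro j hj
    by_contra hne
    apply hj
    have hjc : j.val < c := by
      by_contra hjc
      apply hne
      simp [extv, hjc]
    have hvne : v ⟨j.val, hjc⟩ ≠ b := by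
      intro hv
      apply hne
      simp only [extv, dif_pos hjc, hv]
    have hmem : (⟨j.val, hjc⟩ : Fin c) ∈ L := by
      rw [hL, List.mem_filter]
      exact ⟨List.mem_finRange _, by simpa using hvne⟩
    have hmem2 : j.val ∈ pad := by
      rw [hpad, List.mem_append]
      left
      exact List.mem_map.mpr ⟨_, hmem, rfl⟩
    obtain ⟨k, hk, hkj⟩ := List.mem_iff_getElem.mp hmem2
    refine ⟨⟨k, by rw [← hpadlen]; exact hk⟩, ?_⟩
    apply Fin.ext
    exact hkj
  · have hfil : (List.ofFn v).filter (· ≠ b) = L.map v := by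
      rw [List.ofFn_eq_map, List.filter_map, hL]
      rfl
    have hmapL : L.map (fun i : Fin c => extv c v b i.val) = L.map v := by
      refine List.map_congr_left (fun i _ => ?_)
      simp [extv]
    have hmapR : (List.range (c - L.length)).map (fun k => extv c v b (c + k))
        = List.replicate (c - L.length) b := by
      apply List.eq_replicate_iff.mpr
      refine ⟨by simp, fun x hx => ?_⟩
      obtain ⟨k, _, rfl⟩ := List.mem_map.mp hx
      simp [extv]
    have hmain : List.ofFn (fun j => extv c v b (φ j)) = pad.map (extv c v b) := by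
      apply List.ext_getElem
      · simp [hpadlen]
      · intro i h1 h2
        simp [φ]
    rw [hmain, hfil, hpad, List.map_append, List.map_map, List.map_map, List.length_map]
    congr 1

/-- The operation theorem: reading `c` coordinates through maps `g i` with a background state `a`
gives a partition property for the filtered class vector. -/
theorem PR.op {S S' Sig : Type} [Finite S] [DecidableEq Sig] {d2 : S → S → ℝ} {π : S → Sig}
    (h : PR d2 π) (c : ℕ) (g : Fin c → S' → S) (a : S) :
    PR (fun s t => ∑ i, d2 (g i s) (g i t))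
      (fun s => (List.ofFn (fun i => π (g i s))).filter (· ≠ π a)) := by
  intro κ _
  obtain ⟨N, hN⟩ := ramsey_all c ((Fin c → S) → κ) (2 * c)
  obtain ⟨ι, hι, W, hW, hc⟩ := h.prod N κ
  refine ⟨ι, hι, W, hW, fun col => ?_⟩
  obtain ⟨P, hP1, hP2, hP3⟩ := hc col
  let V : (Fin c → ℕ) → (Fin c → S) → Fin N → S :=
    fun h w l => Function.extend h w (fun _ => a) l.val
  obtain ⟨H, hH, hHlt, hhom⟩ := hN (fun h w => col (P (V h w)))
  let u : S' → Fin (2 * c) → S := fun s j => if hj : j.val < c then g ⟨j.val, hj⟩ s else a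
  let F : S' → Fin N → S := fun s l => Function.extend H (u s) (fun _ => a) l.val
  have hu : ∀ s (j : Fin (2 * c)), π (u s j) = extv c (fun i => π (g i s)) (π a) j.val := by
    intro s j
    by_cases hj : j.val < c
    · simp [u, extv, hj]
    · simp [u, extv, hj]
  have hinj : Function.Injective H := hH.injective
  -- first comparison
  have key1 : ∀ s (φ : Fin c → Fin (2 * c)), StrictMono φ →
      (∀ j : Fin (2 * c), j ∉ Set.range φ → π (u s j) = π a) →
      col (P (F s)) = col (P (V (H ∘ φ) (u s ∘ φ))) := by
    intro s φ hφ hrest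
    apply hP3
    intro l
    have hinj2 : Function.Injective (H ∘ φ) := hinj.comp hφ.injective
    by_cases hl : ∃ j, H j = l.val
    · obtain ⟨j, hj⟩ := hl
      by_cases hjr : j ∈ Set.range φ
      · obtain ⟨j', rfl⟩ := hjr
        have e1 : F s l = u s (φ j') := by
          simp only [F, ← hj]
          exact hinj.extend_apply _ _ _
        have e2 : V (H ∘ φ) (u s ∘ φ) l = u s (φ j') := by
          simp only [V, ← hj]
          exact hinj2.extend_apply (u s ∘ φ) (fun _ => a) j'
        rw [e1, e2]
      · have e1 : F s l = u s j := by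
          simp only [F, ← hj]
          exact hinj.extend_apply _ _ _
        have e2 : V (H ∘ φ) (u s ∘ φ) l = a := by
          simp only [V, ← hj]
          apply Function.extend_apply'
          rintro ⟨j', hj'⟩
          exact hjr ⟨j', hinj hj'⟩
        rw [e1, e2]
        exact hrest j hjr
    · have e1 : F s l = a := by
        simp only [F]
        exact Function.extend_apply' _ _ _ hl
      have e2 : V (H ∘ φ) (u s ∘ φ) l = a := by
        simp only [V]
        apply Function.extend_apply'
        rintro ⟨j', hj'⟩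
        exact hl ⟨_, hj'⟩
      rw [e1, e2]
  -- second comparison
  have key2 : ∀ (φ : Fin c → Fin (2 * c)), StrictMono φ → ∀ w w' : Fin c → S,
      (∀ i, π (w i) = π (w' i)) → col (P (V (H ∘ φ) w)) = col (P (V (H ∘ φ) w')) := by
    intro φ hφ w w' hww
    apply hP3
    intro l
    have hinj2 : Function.Injective (H ∘ φ) := hinj.comp hφ.injective
    by_cases hl : ∃ j, (H ∘ φ) j = l.val
    · obtain ⟨j, hj⟩ := hl
      have e1 : V (H ∘ φ) w l = w j := by
        simp only [V, ← hj]
        exact hinj2.extend_apply _ _ _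
      have e2 : V (H ∘ φ) w' l = w' j := by
        simp only [V, ← hj]
        exact hinj2.extend_apply _ _ _
      rw [e1, e2]
      exact hww j
    · have e1 : V (H ∘ φ) w l = a := by
        simp only [V]
        exact Function.extend_apply' _ _ _ hl
      have e2 : V (H ∘ φ) w' l = a := by
        simp only [V]
        exact Function.extend_apply' _ _ _ hl
      rw [e1, e2]
  refine ⟨fun s => P (F s), fun s => hP1 _, fun s t => ?_, fun s t hst => ?_⟩
  · -- distances
    rw [hP2]
    have hcast : ∀ i : Fin c, (i.val) < 2 * c := fun i => by have := i.isLt; omega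
    let e : Fin c → Fin N := fun i => ⟨H ⟨i.val, hcast i⟩, hHlt _⟩
    have he : Function.Injective e := by
      intro i j hij
      have h1 : H ⟨i.val, hcast i⟩ = H ⟨j.val, hcast j⟩ := congrArg Fin.val hij
      have h2 := hinj h1
      apply Fin.ext
      exact Fin.mk.inj h2
    have hF : ∀ s' (i : Fin c), F s' (e i) = g i s' := by
      intro s' i
      simp only [F, e]
      rw [hinj.extend_apply]
      simp [u]
    apply (Fintype.sum_of_injective e he _ _ ?_ ?_).symm
    · intro l hl
      have hFa : ∀ s', F s' l = a := by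
        intro s'
        by_cases hex : ∃ j, H j = l.val
        · obtain ⟨j, hj⟩ := hex
          have hjc : ¬ j.val < c := by
            intro hjc
            apply hl
            refine ⟨⟨j.val, hjc⟩, ?_⟩
            apply Fin.ext
            simpa [e] using hj
          simp only [F, ← hj]
          rw [hinj.extend_apply]
          simp [u, hjc]
        · simp only [F]
          exact Function.extend_apply' _ _ _ hex
      rw [hFa s, hFa t]
      exact h.self_zero a
    · intro i
      rw [hF, hF]
  · -- colours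
    obtain ⟨φs, hφs, hφs1, hφs2⟩ := padding c (fun i => π (g i s)) (π a)
    obtain ⟨φt, hφt, hφt1, hφt2⟩ := padding c (fun i => π (g i t)) (π a)
    have hst' : (List.ofFn (fun i => π (g i s))).filter (· ≠ π a)
        = (List.ofFn (fun i => π (g i t))).filter (· ≠ π a) := hst
    rw [hst'] at hφs2
    have hlists := hφs2.trans hφt2.symm
    have hfun := List.ofFn_injective hlists
    have k1 := key1 s φs hφs (fun j hj => by rw [hu]; exact hφs1 j hj)
    have k2 := key1 t φt hφt (fun j hj => by rw [hu]; exact hφt1 j hj)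
    have k3 := key2 φt hφt (u s ∘ φs) (u t ∘ φt) (fun i => by
      simp only [Function.comp]
      rw [hu, hu]
      exact congrFun hfun i)
    have k4 : col (P (V (H ∘ φs) (u s ∘ φs))) = col (P (V (H ∘ φt) (u s ∘ φs))) :=
      congrFun (hhom φs φt hφs hφt) (u s ∘ φs)
    exact k1.trans (k4.trans (k3.trans k2.symm))

end Vale.Agent.Lib.P058R
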