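import Mathlib
import Vale.Agent.Lib.P058R.PR

/-! Sign flips at the letter level. -/

namespace Vale.Agent.Lib.P058R

variable {κ : Type} [Fintype κ]

/-- Signed letter point: `u r` or `- u r`. -/
def sgn (u : Fin 3 → κ → ℝ) (y : Bool × Fin 3) : κ → ℝ :=
  if y.1 then u y.2 else - u y.2

/-- Flip the sign. -/
def flp (y : Bool × Fin 3) : Bool × Fin 3 := (!y.1, y.2)

lemma sgn_flp (u : Fin 3 → κ → ℝ) (y : Bool × Fin 3) : sgn u (flp y) = - sgn u y := by
  rcases y with ⟨b, r⟩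
  cases b <;> simp [sgn, flp]

lemma sq_flp (u : Fin 3 → κ → ℝ) (y y' : Bool × Fin 3) :
    sq (sgn u (flp y)) (sgn u (flp y')) = sq (sgn u y) (sgn u y') := by
  rw [sgn_flp, sgn_flp, sq_neg]

/-- The two readings. -/
def gFlip (i : Fin 2) (y : Bool × Fin 3) : Bool × Fin 3 := if i = 0 then y else flp y

lemma letter_step (u : Fin 3 → κ → ℝ) (lam : ℝ) {Sig : Type} [DecidableEq Sig]
    {π : Bool × Fin 3 → Sig} (h : PR (fun y y' => lam * sq (sgn u y) (sgn u y')) π)
    (a : Bool × Fin 3) :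
    PR (fun y y' => (2 * lam) * sq (sgn u y) (sgn u y'))
      (fun y => (List.ofFn (fun i => π (gFlip i y))).filter (· ≠ π a)) := by
  refine (h.op 2 gFlip a).congr_d2 (fun y y' => ?_)
  simp only [Fin.sum_univ_two, gFlip]
  simp only [if_true, Fin.isValue, one_ne_zero, if_false, sq_flp]
  ring

/-- Class function merging the signs of the radii below `j`. -/
def rhoL (j : ℕ) (y : Bool × Fin 3) : Bool × Fin 3 :=
  if y.2.val < j then (false, y.2) else y

lemma rhoL_step1 : ∀ y y' : Bool × Fin 3, rhoL 1 y = rhoL 1 y' →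
    (List.ofFn (fun i => (gFlip i y))).filter (· ≠ (false, 0)) =
    (List.ofFn (fun i => (gFlip i y'))).filter (· ≠ (false, 0)) := by
  decide

lemma rhoL_step2 : ∀ y y' : Bool × Fin 3, rhoL 2 y = rhoL 2 y' →
    (List.ofFn (fun i => rhoL 1 (gFlip i y))).filter (· ≠ rhoL 1 (false, 1)) =
    (List.ofFn (fun i => rhoL 1 (gFlip i y'))).filter (· ≠ rhoL 1 (false, 1)) := by
  decide

lemma rhoL_step3 : ∀ y y' : Bool × Fin 3, rhoL 3 y = rhoL 3 y' →
    (List.ofFn (fun i => rhoL 2 (gFlip i y))).filter (· ≠ rhoL 2 (false, 2)) =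
    (List.ofFn (fun i => rhoL 2 (gFlip i y'))).filter (· ≠ rhoL 2 (false, 2)) := by
  decide

lemma rhoL_final : ∀ y y' : Bool × Fin 3, y.2 = y'.2 → rhoL 3 y = rhoL 3 y' := by
  decide

/-- Letter level: all signs merged. -/
theorem letters (u : Fin 3 → κ → ℝ) :
    PR (fun y y' : Bool × Fin 3 => (8 : ℝ) * sq (sgn u y) (sgn u y')) (fun y => y.2) := by
  have h0 : PR (fun y y' : Bool × Fin 3 => (1 : ℝ) * sq (sgn u y) (sgn u y')) (fun y => y) :=
    (PR.base (fun y : Bool × Fin 3 => sgn u y)).congr_d2 (fun y y' => by ring)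
  have h1 : PR (fun y y' : Bool × Fin 3 => (2 * 1 : ℝ) * sq (sgn u y) (sgn u y')) (rhoL 1) :=
    (letter_step u 1 h0 (false, 0)).mono rhoL_step1
  have h2 : PR (fun y y' : Bool × Fin 3 => (2 * (2 * 1) : ℝ) * sq (sgn u y) (sgn u y')) (rhoL 2) :=
    (letter_step u _ h1 (false, 1)).mono rhoL_step2
  have h3 : PR (fun y y' : Bool × Fin 3 => (2 * (2 * (2 * 1)) : ℝ) * sq (sgn u y) (sgn u y'))
      (rhoL 3) :=
    (letter_step u _ h2 (false, 2)).mono rhoL_step3
  refine (h3.mono (ρ := fun y => y.2) rhoL_final).congr_d2 (fun y y' => ?_)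
  ring

end Vale.Agent.Lib.P058R
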