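import Mathlib
import Vale.Agent.Lib.P058R.Letters

/-! Signed arrangements: the word level. -/

namespace Vale.Agent.Lib.P058R

open Equiv

variable {κ : Type} [Fintype κ] {n : ℕ}

/-! ### List lemmas -/

lemma exists_perm_ofFn {α : Type} [LinearOrder α] {n : ℕ} (r : Fin n → α) (l : List α)
    (h : (List.ofFn r).Perm l) : ∃ σ : Perm (Fin n), List.ofFn (r ∘ σ) = l := by
  have hlen : n = l.length := by
    have := h.length_eq
    simpa using this
  subst hlen
  have hr' : List.ofFn l.get = l := List.ofFn_get l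
  have h1 : (List.ofFn (r ∘ Tuple.sort r)).Perm (List.ofFn (l.get ∘ Tuple.sort l.get)) := by
    refine ((Equiv.Perm.ofFn_comp_perm _ r).trans h).trans ?_
    refine List.Perm.trans ?_ (Equiv.Perm.ofFn_comp_perm _ l.get).symm
    rw [hr']
  have h2 := h1.eq_of_sortedLE (Tuple.monotone_sort r).sortedLE_ofFn
    (Tuple.monotone_sort l.get).sortedLE_ofFn
  have h3 := List.ofFn_injective h2
  refine ⟨(Tuple.sort r) * (Tuple.sort l.get)⁻¹, ?_⟩
  have h4 : r ∘ ((Tuple.sort r) * (Tuple.sort l.get)⁻¹ : Perm _) = l.get := by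
    funext j
    have := congrFun h3 ((Tuple.sort l.get)⁻¹ j)
    simpa [Function.comp] using this
  rw [h4, hr']

lemma ofFn_comp_rev {α : Type} {n : ℕ} (f : Fin n → α) :
    List.ofFn (f ∘ Fin.revPerm) = (List.ofFn f).reverse := by
  apply List.ext_getElem
  · simp
  · intro i h1 h2
    have h1' : i < n := by simpa using h1
    simp only [List.getElem_ofFn, List.getElem_reverse, Function.comp, Fin.revPerm_apply,
      List.length_ofFn]
    congr 1
    apply Fin.ext
    simp only [Fin.val_rev]
    omega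

lemma perm_eq_of_const {α : Type} {l l' : List α} {x : α} (h : l.Perm l') (hx : ∀ y ∈ l, y = x) :
    l = l' := by
  have h1 : l = List.replicate l.length x := List.eq_replicate_iff.mpr ⟨rfl, hx⟩
  have h2 : l' = List.replicate l'.length x :=
    List.eq_replicate_iff.mpr ⟨rfl, fun y hy => hx y (h.mem_iff.mpr hy)⟩
  calc l = List.replicate l.length x := h1
    _ = List.replicate l'.length x := by rw [h.length_eq]
    _ = l' := h2.symm

/-! ### States -/

/-- Signed arrangements of a radius vector. -/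
abbrev Arr (r : Fin n → Fin 3) : Type :=
  {t : Fin n → Bool × Fin 3 // ∃ σ : Perm (Fin n), ∀ i, (t i).2 = r (σ i)}

/-- Word of an arrangement: the nonzero radii in order. -/
def word (t : Fin n → Bool × Fin 3) : List (Fin 3) :=
  (List.ofFn (fun i => (t i).2)).filter (· ≠ 0)

/-- Squared distance of arrangements. -/
def dArr (u : Fin 3 → κ → ℝ) (t t' : Fin n → Bool × Fin 3) : ℝ :=
  ∑ i, sq (sgn u (t i)) (sgn u (t' i))

/-- Permuting the positions of an arrangement. -/
def Arr.perm {r : Fin n → Fin 3} (τ : Perm (Fin n)) (t : Arr r) : Arr r :=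
  ⟨fun i => t.1 (τ i), by
    obtain ⟨σ, hσ⟩ := t.2
    exact ⟨τ.trans σ, fun i => hσ (τ i)⟩⟩

lemma dArr_perm (u : Fin 3 → κ → ℝ) {r : Fin n → Fin 3} (τ : Perm (Fin n)) (t t' : Arr r) :
    dArr u (t.perm τ).1 (t'.perm τ).1 = dArr u t.1 t'.1 :=
  Equiv.sum_comp τ (fun i => sq (sgn u (t.1 i)) (sgn u (t'.1 i)))

/-- The operation on arrangements through position permutations. -/
theorem arr_op (u : Fin 3 → κ → ℝ) {r : Fin n → Fin 3} {Sig : Type} [DecidableEq Sig] {lam : ℝ}
    {π : Arr r → Sig} (h : PR (fun t t' : Arr r => lam * dArr u t.1 t'.1) π)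
    (c : ℕ) (τ : Fin c → Perm (Fin n)) (a : Arr r) :
    PR (fun t t' : Arr r => ((c : ℝ) * lam) * dArr u t.1 t'.1)
      (fun t => (List.ofFn (fun i => π (t.perm (τ i)))).filter (· ≠ π a)) := by
  refine (h.op c (fun i (t : Arr r) => t.perm (τ i)) a).congr_d2 (fun t t' => ?_)
  simp only [dArr_perm]
  simp [Finset.sum_const, Finset.card_univ]
  ring

/-- The first step: words as classes. -/
theorem arr_word (u : Fin 3 → κ → ℝ) (r : Fin n → Fin 3) :
    PR (fun t t' : Arr r => (8 : ℝ) * dArr u t.1 t'.1) (fun t => word t.1) := by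
  refine ((letters u).op n (fun i (t : Arr r) => t.1 i) (false, 0)).congr_d2 (fun t t' => ?_)
  simp only [dArr, Finset.mul_sum]

lemma word_perm {r : Fin n → Fin 3} (t : Arr r) :
    (word t.1).Perm ((List.ofFn r).filter (· ≠ 0)) := by
  obtain ⟨σ, hσ⟩ := t.2
  have : (fun i => (t.1 i).2) = r ∘ σ := by
    funext i
    exact hσ i
  unfold word
  rw [this]
  exact (Equiv.Perm.ofFn_comp_perm σ r).filter _

lemma word_arr_perm {r : Fin n → Fin 3} (t : Arr r) :
    word (t.perm Fin.revPerm).1 = (word t.1).reverse := by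
  unfold word
  have : (fun i => ((t.perm Fin.revPerm).1 i).2) = (fun i => (t.1 i).2) ∘ Fin.revPerm := rfl
  rw [this, ofFn_comp_rev, List.filter_reverse]

/-- Two radii: word is constant. -/
theorem two_radii (u : Fin 3 → κ → ℝ) (r : Fin n → Fin 3) (x : Fin 3)
    (hr : ∀ i, r i = 0 ∨ r i = x) :
    PR (fun t t' : Arr r => (8 : ℝ) * dArr u t.1 t'.1) (fun _ => ()) := by
  refine (arr_word u r).mono (fun t t' _ => ?_)
  refine perm_eq_of_const (x := x) ((word_perm t).trans (word_perm t').symm) ?_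
  intro y hy
  have hy' := (word_perm t).mem_iff.mp hy
  obtain ⟨hy1, hy2⟩ := List.mem_filter.mp hy'
  obtain ⟨i, rfl⟩ := (List.mem_ofFn' r y).mp hy1
  rcases hr i with h | h
  · simp [h] at hy2
  · exact h

/-! ### The three radius case -/

/-- Word shapes with one special letter. -/
def shape (Q i : ℕ) : List (Fin 3) := List.replicate i 1 ++ 2 :: List.replicate (Q - i) 1

lemma shape_of_perm {Q : ℕ} {w : List (Fin 3)} (h : w.Perm (2 :: List.replicate Q 1)) :
    ∃ i, i ≤ Q ∧ w = shape Q i := by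
  have hm : (2 : Fin 3) ∈ w := h.mem_iff.mpr (by simp)
  obtain ⟨s, s', rfl⟩ := List.append_of_mem hm
  have h1 : (s ++ s').Perm (List.replicate Q 1) :=
    (List.perm_middle.symm.trans h).cons_inv
  have hs : ∀ y ∈ s, y = 1 := fun y hy =>
    List.eq_of_mem_replicate (h1.mem_iff.mp (List.mem_append_left _ hy))
  have hs' : ∀ y ∈ s', y = 1 := fun y hy =>
    List.eq_of_mem_replicate (h1.mem_iff.mp (List.mem_append_right _ hy))
  have hlen : s.length + s'.length = Q := by
    have := h1.length_eq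
    simpa using this
  refine ⟨s.length, by omega, ?_⟩
  have e1 : s = List.replicate s.length 1 := List.eq_replicate_iff.mpr ⟨rfl, hs⟩
  have e2 : s' = List.replicate s'.length 1 := List.eq_replicate_iff.mpr ⟨rfl, hs'⟩
  unfold shape
  have e3 : Q - s.length = s'.length := by omega
  rw [e3]
  rw [← e1, ← e2]

/-- One reversal step at the word level. -/
def revStep {Sig : Type} [DecidableEq Sig] (Pf : List (Fin 3) → Sig) (b : Sig)
    (w : List (Fin 3)) : List Sig :=
  [Pf w, Pf w.reverse].filter (· ≠ b)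

theorem rev_op (u : Fin 3 → κ → ℝ) {r : Fin n → Fin 3} {Sig : Type} [DecidableEq Sig] {lam : ℝ}
    {Pf : List (Fin 3) → Sig} (h : PR (fun t t' : Arr r => lam * dArr u t.1 t'.1)
      (fun t => Pf (word t.1))) (a : Arr r) :
    PR (fun t t' : Arr r => (2 * lam) * dArr u t.1 t'.1)
      (fun t => revStep Pf (Pf (word a.1)) (word t.1)) := by
  have := arr_op u h 2 ![1, Fin.revPerm] a
  refine (this.mono (ρ := fun t => revStep Pf (Pf (word a.1)) (word t.1)) ?_).congr_d2 ?_
  · intro t t' htt
    have key : ∀ s : Arr r, (List.ofFn (fun i => Pf (word (s.perm (![1, Fin.revPerm] i)).1))) =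
        [Pf (word s.1), Pf (word s.1).reverse] := by
      intro s
      rw [← word_arr_perm s]
      simp [List.ofFn_succ, Arr.perm]
    simp only [key]
    exact htt
  · intro t t'
    norm_num

/-- The class function after the reversal steps. -/
def extB (w : List (Fin 3)) : Bool :=
  decide (w.head? = some 2) || decide (w.getLast? = some 2)

/-- The two reversal steps. -/
def Pi1 (Q : ℕ) (w : List (Fin 3)) : List (List (Fin 3)) :=
  revStep id (id (shape Q 0)) w

def Pi2 (Q : ℕ) (w : List (Fin 3)) : List (List (List (Fin 3))) :=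
  revStep (Pi1 Q) (Pi1 Q (shape Q (min 1 Q))) w

lemma Pi2_ext : ∀ Q : Fin 4, ∀ i i' : Fin 4, i ≤ Q → i' ≤ Q →
    extB (shape Q i) = extB (shape Q i') → Pi2 Q (shape Q i) = Pi2 Q (shape Q i') := by
  decide

/-- The final operation over all permutations: a two-class function of the word is merged. -/
theorem final_op (u : Fin 3 → κ → ℝ) (r : Fin n → Fin 3) (Bt : List (Fin 3) → Bool) {lam : ℝ}
    (h : PR (fun t t' : Arr r => lam * dArr u t.1 t'.1) (fun t => Bt (word t.1))) (a : Arr r)
    (ha : Bt (word a.1) = true) :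
    PR (fun t t' : Arr r => ((Fintype.card (Perm (Fin n)) : ℝ) * lam) * dArr u t.1 t'.1)
      (fun _ => ()) := by
  let τ : Fin (Fintype.card (Perm (Fin n))) ≃ Perm (Fin n) := (Fintype.equivFin _).symm
  refine (arr_op u h _ τ a).mono (fun t t' _ => ?_)
  let E : Perm (Fin n) → Bool := fun ρ => Bt ((List.ofFn (r ∘ ρ)).filter (· ≠ 0))
  have key : ∀ s : Arr r, (List.ofFn (fun i => Bt (word (s.perm (τ i)).1))).Perm
      (List.ofFn (E ∘ τ)) := by
    intro s
    obtain ⟨σ, hσ⟩ := s.2
    have hw : ∀ ρ : Perm (Fin n), Bt (word (s.perm ρ).1) = E (Equiv.mulLeft σ ρ) := by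
      intro ρ
      have : (fun i => ((s.perm ρ).1 i).2) = r ∘ (Equiv.mulLeft σ ρ) := by
        funext i
        exact hσ (ρ i)
      simp only [E, word]
      rw [this]
    let θ : Perm (Fin (Fintype.card (Perm (Fin n)))) :=
      τ.trans ((Equiv.mulLeft σ).trans τ.symm)
    have hf : (fun i => Bt (word (s.perm (τ i)).1)) = (E ∘ τ) ∘ θ := by
      funext i
      rw [hw]
      simp [θ]
    rw [hf]
    exact Equiv.Perm.ofFn_comp_perm θ (E ∘ τ)
  refine perm_eq_of_const (x := false) (((key t).trans (key t').symm).filter _) ?_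
  intro y hy
  have := (List.mem_filter.mp hy).2
  rw [ha] at this
  simpa using this

/-- Background arrangements with prescribed word. -/
lemma bg (r : Fin n → Fin 3) (Q : ℕ) (h2 : (List.ofFn r).count 2 = 1)
    (h1 : (List.ofFn r).count 1 = Q) (i : ℕ) (hi : i ≤ Q) :
    ∃ a : Arr r, word a.1 = shape Q i := by
  have hperm : (List.ofFn r).Perm (List.replicate ((List.ofFn r).count 0) 0 ++ shape Q i) := by
    rw [List.perm_iff_count]
    intro x
    fin_cases x
    · simp [shape, List.count_append, List.count_replicate]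
    · simp [shape, List.count_append, List.count_replicate, h1]
      omega
    · simp [shape, List.count_append, List.count_replicate, h2]
  obtain ⟨σ, hσ⟩ := exists_perm_ofFn r _ hperm
  refine ⟨⟨fun j => (false, r (σ j)), σ, fun _ => rfl⟩, ?_⟩
  have e : (fun j => ((false, r (σ j)) : Bool × Fin 3).2) = r ∘ σ := rfl
  simp only [word]
  rw [e, hσ]
  simp [shape, List.filter_append]

theorem three_radii (u : Fin 3 → κ → ℝ) (r : Fin n → Fin 3) (h2 : (List.ofFn r).count 2 = 1)
    (h1 : (List.ofFn r).count 1 ≤ 3) :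
    ∃ lam : ℝ, 0 < lam ∧ PR (fun t t' : Arr r => lam * dArr u t.1 t'.1) (fun _ => ()) := by
  obtain ⟨Q, hQ⟩ : ∃ Q, (List.ofFn r).count 1 = Q := ⟨_, rfl⟩
  have hQ3 : Q ≤ 3 := by omega
  obtain ⟨a0, ha0⟩ := bg r Q h2 hQ 0 (Nat.zero_le _)
  obtain ⟨a1, ha1⟩ := bg r Q h2 hQ (min 1 Q) (min_le_right _ _)
  have s0 : PR (fun t t' : Arr r => (8 : ℝ) * dArr u t.1 t'.1) (fun t => id (word t.1)) :=
    arr_word u r
  have s1 : PR (fun t t' : Arr r => (2 * 8 : ℝ) * dArr u t.1 t'.1) (fun t => Pi1 Q (word t.1)) := by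
    have := rev_op u s0 a0
    rw [ha0] at this
    exact this
  have s2 : PR (fun t t' : Arr r => (2 * (2 * 8) : ℝ) * dArr u t.1 t'.1)
      (fun t => Pi2 Q (word t.1)) := by
    have := rev_op u s1 a1
    rw [ha1] at this
    exact this
  have hshape : ∀ t : Arr r, ∃ i, i ≤ Q ∧ word t.1 = shape Q i := by
    intro t
    apply shape_of_perm
    have h3 := (word_perm t).trans (word_perm a0).symm
    rw [ha0] at h3
    simpa [shape] using h3
  have s3 : PR (fun t t' : Arr r => (2 * (2 * 8) : ℝ) * dArr u t.1 t'.1)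
      (fun t => extB (word t.1)) := by
    refine s2.mono (fun t t' h => ?_)
    obtain ⟨i, hi, hit⟩ := hshape t
    obtain ⟨i', hi', hit'⟩ := hshape t'
    rw [hit, hit'] at h ⊢
    have hi4 : i < 4 := by omega
    have hi'4 : i' < 4 := by omega
    have hQ4 : Q < 4 := by omega
    exact Pi2_ext ⟨Q, hQ4⟩ ⟨i, hi4⟩ ⟨i', hi'4⟩ hi hi' h
  have s4 := final_op u r extB s3 a0 (by rw [ha0]; simp [extB, shape])
  refine ⟨_, ?_, s4⟩
  have : (0 : ℝ) < Fintype.card (Perm (Fin n)) := by
    exact_mod_cast Fintype.card_pos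
  positivity

lemma card_eq_count {n : ℕ} (f : Fin n → Fin 3) (x : Fin 3) :
    (Finset.univ.filter (fun i => f i = x)).card = (List.ofFn f).count x := by
  rw [List.ofFn_eq_map, List.count_eq_countP, List.countP_map, List.countP_eq_length_filter]
  have : (Finset.univ.filter (fun i => f i = x)) =
      ((List.finRange n).filter (fun i => f i = x)).toFinset := by
    ext i
    simp
  rw [this, List.toFinset_card_of_nodup ((List.nodup_finRange n).filter _)]
  have e : (fun i => decide (f i = x)) = ((fun y => y == x) ∘ f) := by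
    funext i
    rfl
  rw [e]

/-- The condition on radius vectors handled here. -/
def RadCond {n : ℕ} (r : Fin n → Fin 3) : Prop :=
  (∀ i, r i ≠ 2) ∨ ((Finset.univ.filter (fun i => r i = 2)).card = 1 ∧
    (Finset.univ.filter (fun i => r i = 1)).card ≤ 3)

theorem arr_main (u : Fin 3 → κ → ℝ) (r : Fin n → Fin 3) (hr : RadCond r) :
    ∃ lam : ℝ, 0 < lam ∧ PR (fun t t' : Arr r => lam * dArr u t.1 t'.1) (fun _ => ()) := by
  rcases hr with hr | ⟨h2, h1⟩
  · refine ⟨8, by norm_num, two_radii u r 1 (fun i => ?_)⟩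
    have h3 := hr i
    generalize r i = x at h3
    fin_cases x
    · simp
    · simp
    · simp at h3
  · rw [card_eq_count] at h2 h1
    exact three_radii u r h2 h1

end Vale.Agent.Lib.P058R
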