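import Mathlib
import Vale.Agent.Lib.P058R.Arr

/-! Arrangements over a general letter set whose radius classes have the partition property. -/

namespace Vale.Agent.Lib.P058R

open Equiv

section

variable {κ : Type} [Fintype κ] {n : ℕ} {L : Type}

/-- Arrangements of letters with radius vector a rearrangement of `r`. -/
abbrev ArrG (rad : L → Fin 3) (r : Fin n → Fin 3) : Type :=
  {t : Fin n → L // ∃ σ : Perm (Fin n), ∀ i, rad (t i) = r (σ i)}

/-- Word of an arrangement: the nonzero radii in order. -/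
def wordG (rad : L → Fin 3) (t : Fin n → L) : List (Fin 3) :=
  (List.ofFn (fun i => rad (t i))).filter (· ≠ 0)

/-- Squared distance of arrangements. -/
def dG (e : L → κ → ℝ) (t t' : Fin n → L) : ℝ :=
  ∑ i, sq (e (t i)) (e (t' i))

/-- Permuting the positions of an arrangement. -/
def ArrG.perm {rad : L → Fin 3} {r : Fin n → Fin 3} (τ : Perm (Fin n)) (t : ArrG rad r) :
    ArrG rad r :=
  ⟨fun i => t.1 (τ i), by
    obtain ⟨σ, hσ⟩ := t.2
    exact ⟨τ.trans σ, fun i => hσ (τ i)⟩⟩

lemma dG_perm (e : L → κ → ℝ) {rad : L → Fin 3} {r : Fin n → Fin 3} (τ : Perm (Fin n))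
    (t t' : ArrG rad r) : dG e (t.perm τ).1 (t'.perm τ).1 = dG e t.1 t'.1 :=
  Equiv.sum_comp τ (fun i => sq (e (t.1 i)) (e (t'.1 i)))

/-- The operation on arrangements through position permutations. -/
theorem arrG_op [Finite L] (e : L → κ → ℝ) {rad : L → Fin 3} {r : Fin n → Fin 3} {Sig : Type}
    [DecidableEq Sig] {lam : ℝ} {π : ArrG rad r → Sig}
    (h : PR (fun t t' : ArrG rad r => lam * dG e t.1 t'.1) π)
    (c : ℕ) (τ : Fin c → Perm (Fin n)) (a : ArrG rad r) :
    PR (fun t t' : ArrG rad r => ((c : ℝ) * lam) * dG e t.1 t'.1)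
      (fun t => (List.ofFn (fun i => π (t.perm (τ i)))).filter (· ≠ π a)) := by
  refine (h.op c (fun i (t : ArrG rad r) => t.perm (τ i)) a).congr_d2 (fun t t' => ?_)
  simp only [dG_perm]
  simp [Finset.sum_const, Finset.card_univ]
  ring

/-- The first step: words as classes. -/
theorem arrG_word [Finite L] (e : L → κ → ℝ) {rad : L → Fin 3} {lamL : ℝ}
    (hL : PR (fun y y' => lamL * sq (e y) (e y')) rad) {a0 : L} (ha0 : rad a0 = 0)
    (r : Fin n → Fin 3) :
    PR (fun t t' : ArrG rad r => lamL * dG e t.1 t'.1) (fun t => wordG rad t.1) := by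
  have h := hL.op n (fun i (t : ArrG rad r) => t.1 i) a0
  rw [ha0] at h
  refine h.congr_d2 (fun t t' => ?_)
  simp only [dG, Finset.mul_sum]

lemma wordG_perm {rad : L → Fin 3} {r : Fin n → Fin 3} (t : ArrG rad r) :
    (wordG rad t.1).Perm ((List.ofFn r).filter (· ≠ 0)) := by
  obtain ⟨σ, hσ⟩ := t.2
  have : (fun i => rad (t.1 i)) = r ∘ σ := by
    funext i
    exact hσ i
  unfold wordG
  rw [this]
  exact (Equiv.Perm.ofFn_comp_perm σ r).filter _

lemma wordG_arr_perm {rad : L → Fin 3} {r : Fin n → Fin 3} (t : ArrG rad r) :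
    wordG rad (t.perm Fin.revPerm).1 = (wordG rad t.1).reverse := by
  unfold wordG
  have : (fun i => rad ((t.perm Fin.revPerm).1 i)) = (fun i => rad (t.1 i)) ∘ Fin.revPerm := rfl
  rw [this, ofFn_comp_rev, List.filter_reverse]

/-- Two radii: the word is constant. -/
theorem two_radiiG [Finite L] (e : L → κ → ℝ) {rad : L → Fin 3} {lamL : ℝ}
    (hL : PR (fun y y' => lamL * sq (e y) (e y')) rad) {a0 : L} (ha0 : rad a0 = 0)
    (r : Fin n → Fin 3) (x : Fin 3) (hr : ∀ i, r i = 0 ∨ r i = x) :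
    PR (fun t t' : ArrG rad r => lamL * dG e t.1 t'.1) (fun _ => ()) := by
  refine (arrG_word e hL ha0 r).mono (fun t t' _ => ?_)
  refine perm_eq_of_const (x := x) ((wordG_perm t).trans (wordG_perm t').symm) ?_
  intro y hy
  have hy' := (wordG_perm t).mem_iff.mp hy
  obtain ⟨hy1, hy2⟩ := List.mem_filter.mp hy'
  obtain ⟨i, rfl⟩ := (List.mem_ofFn' r y).mp hy1
  rcases hr i with h | h
  · simp [h] at hy2
  · exact h

theorem revG_op [Finite L] (e : L → κ → ℝ) {rad : L → Fin 3} {r : Fin n → Fin 3} {Sig : Type}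
    [DecidableEq Sig] {lam : ℝ} {Pf : List (Fin 3) → Sig}
    (h : PR (fun t t' : ArrG rad r => lam * dG e t.1 t'.1) (fun t => Pf (wordG rad t.1)))
    (a : ArrG rad r) :
    PR (fun t t' : ArrG rad r => (2 * lam) * dG e t.1 t'.1)
      (fun t => revStep Pf (Pf (wordG rad a.1)) (wordG rad t.1)) := by
  have := arrG_op e h 2 ![1, Fin.revPerm] a
  refine (this.mono (ρ := fun t => revStep Pf (Pf (wordG rad a.1)) (wordG rad t.1)) ?_).congr_d2 ?_
  · intro t t' htt
    have key : ∀ s : ArrG rad r,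
        (List.ofFn (fun i => Pf (wordG rad (s.perm (![1, Fin.revPerm] i)).1))) =
        [Pf (wordG rad s.1), Pf (wordG rad s.1).reverse] := by
      intro s
      rw [← wordG_arr_perm s]
      simp [List.ofFn_succ, ArrG.perm]
    simp only [key]
    exact htt
  · intro t t'
    norm_num

/-- The final operation over all permutations: a two-class function of the word is merged. -/
theorem finalG_op [Finite L] (e : L → κ → ℝ) {rad : L → Fin 3} (r : Fin n → Fin 3)
    (Bt : List (Fin 3) → Bool) {lam : ℝ}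
    (h : PR (fun t t' : ArrG rad r => lam * dG e t.1 t'.1) (fun t => Bt (wordG rad t.1)))
    (a : ArrG rad r) (ha : Bt (wordG rad a.1) = true) :
    PR (fun t t' : ArrG rad r => ((Fintype.card (Perm (Fin n)) : ℝ) * lam) * dG e t.1 t'.1)
      (fun _ => ()) := by
  let τ : Fin (Fintype.card (Perm (Fin n))) ≃ Perm (Fin n) := (Fintype.equivFin _).symm
  refine (arrG_op e h _ τ a).mono (fun t t' _ => ?_)
  let E : Perm (Fin n) → Bool := fun ρ => Bt ((List.ofFn (r ∘ ρ)).filter (· ≠ 0))
  have key : ∀ s : ArrG rad r, (List.ofFn (fun i => Bt (wordG rad (s.perm (τ i)).1))).Perm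
      (List.ofFn (E ∘ τ)) := by
    intro s
    obtain ⟨σ, hσ⟩ := s.2
    have hw : ∀ ρ : Perm (Fin n), Bt (wordG rad (s.perm ρ).1) = E (Equiv.mulLeft σ ρ) := by
      intro ρ
      have : (fun i => rad ((s.perm ρ).1 i)) = r ∘ (Equiv.mulLeft σ ρ) := by
        funext i
        exact hσ (ρ i)
      simp only [E, wordG]
      rw [this]
    let θ : Perm (Fin (Fintype.card (Perm (Fin n)))) :=
      τ.trans ((Equiv.mulLeft σ).trans τ.symm)
    have hf : (fun i => Bt (wordG rad (s.perm (τ i)).1)) = (E ∘ τ) ∘ θ := by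
      funext i
      rw [hw]
      simp [θ]
    rw [hf]
    exact Equiv.Perm.ofFn_comp_perm θ (E ∘ τ)
  refine perm_eq_of_const (x := false) (((key t).trans (key t').symm).filter _) ?_
  intro y hy
  have := (List.mem_filter.mp hy).2
  rw [ha] at this
  simpa using this

/-- Background arrangements with prescribed word. -/
lemma bgG {rad : L → Fin 3} (sec : Fin 3 → L) (hsec : ∀ x, rad (sec x) = x) (r : Fin n → Fin 3)
    (Q : ℕ) (h2 : (List.ofFn r).count 2 = 1)
    (h1 : (List.ofFn r).count 1 = Q) (i : ℕ) (hi : i ≤ Q) :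
    ∃ a : ArrG rad r, wordG rad a.1 = shape Q i := by
  have hperm : (List.ofFn r).Perm (List.replicate ((List.ofFn r).count 0) 0 ++ shape Q i) := by
    rw [List.perm_iff_count]
    intro x
    fin_cases x
    · simp [shape, List.count_append, List.count_replicate]
    · simp [shape, List.count_append, List.count_replicate, h1]
      omega
    · simp [shape, List.count_append, List.count_replicate, h2]
  obtain ⟨σ, hσ⟩ := exists_perm_ofFn r _ hperm
  refine ⟨⟨fun j => sec (r (σ j)), σ, fun j => hsec _⟩, ?_⟩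
  have e : (fun j => rad (sec (r (σ j)))) = r ∘ σ := by
    funext j
    exact hsec _
  simp only [wordG]
  rw [e, hσ]
  simp [shape, List.filter_append]

theorem three_radiiG [Finite L] (e : L → κ → ℝ) {rad : L → Fin 3} {lamL : ℝ} (hl : 0 < lamL)
    (hL : PR (fun y y' => lamL * sq (e y) (e y')) rad) (sec : Fin 3 → L)
    (hsec : ∀ x, rad (sec x) = x) (r : Fin n → Fin 3) (h2 : (List.ofFn r).count 2 = 1)
    (h1 : (List.ofFn r).count 1 ≤ 3) :
    ∃ lam : ℝ, 0 < lam ∧
      PR (fun t t' : ArrG rad r => lam * dG e t.1 t'.1) (fun _ => ()) := by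
  obtain ⟨Q, hQ⟩ : ∃ Q, (List.ofFn r).count 1 = Q := ⟨_, rfl⟩
  have hQ3 : Q ≤ 3 := by omega
  obtain ⟨a0, ha0⟩ := bgG sec hsec r Q h2 hQ 0 (Nat.zero_le _)
  obtain ⟨a1, ha1⟩ := bgG sec hsec r Q h2 hQ (min 1 Q) (min_le_right _ _)
  have s0 : PR (fun t t' : ArrG rad r => lamL * dG e t.1 t'.1) (fun t => id (wordG rad t.1)) :=
    arrG_word e hL (hsec 0) r
  have s1 : PR (fun t t' : ArrG rad r => (2 * lamL) * dG e t.1 t'.1)
      (fun t => Pi1 Q (wordG rad t.1)) := by
    have := revG_op e s0 a0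
    rw [ha0] at this
    exact this
  have s2 : PR (fun t t' : ArrG rad r => (2 * (2 * lamL)) * dG e t.1 t'.1)
      (fun t => Pi2 Q (wordG rad t.1)) := by
    have := revG_op e s1 a1
    rw [ha1] at this
    exact this
  have hshape : ∀ t : ArrG rad r, ∃ i, i ≤ Q ∧ wordG rad t.1 = shape Q i := by
    intro t
    apply shape_of_perm
    have h3 := (wordG_perm t).trans (wordG_perm a0).symm
    rw [ha0] at h3
    simpa [shape] using h3
  have s3 : PR (fun t t' : ArrG rad r => (2 * (2 * lamL)) * dG e t.1 t'.1)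
      (fun t => extB (wordG rad t.1)) := by
    refine s2.mono (fun t t' h => ?_)
    obtain ⟨i, hi, hit⟩ := hshape t
    obtain ⟨i', hi', hit'⟩ := hshape t'
    rw [hit, hit'] at h ⊢
    have hi4 : i < 4 := by omega
    have hi'4 : i' < 4 := by omega
    have hQ4 : Q < 4 := by omega
    exact Pi2_ext ⟨Q, hQ4⟩ ⟨i, hi4⟩ ⟨i', hi'4⟩ hi hi' h
  have s4 := finalG_op e r extB s3 a0 (by rw [ha0]; simp [extB, shape])
  refine ⟨_, ?_, s4⟩
  have : (0 : ℝ) < Fintype.card (Perm (Fin n)) := by
    exact_mod_cast Fintype.card_pos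
  positivity

theorem arrG_main [Finite L] (e : L → κ → ℝ) {rad : L → Fin 3} {lamL : ℝ} (hl : 0 < lamL)
    (hL : PR (fun y y' => lamL * sq (e y) (e y')) rad) (sec : Fin 3 → L)
    (hsec : ∀ x, rad (sec x) = x) (r : Fin n → Fin 3) (hr : RadCond r) :
    ∃ lam : ℝ, 0 < lam ∧
      PR (fun t t' : ArrG rad r => lam * dG e t.1 t'.1) (fun _ => ()) := by
  rcases hr with hr | ⟨h2, h1⟩
  · refine ⟨lamL, hl, two_radiiG e hL (hsec 0) r 1 (fun i => ?_)⟩
    have h3 := hr i
    generalize r i = x at h3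
    fin_cases x
    · simp
    · simp
    · simp at h3
  · rw [card_eq_count] at h2 h1
    exact three_radiiG e hl hL sec hsec r h2 h1

end

end Vale.Agent.Lib.P058R
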