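import Mathlib
import Vale.Agent.Lib.P058R.PR

/-! Cyclic merging: classes permuted by an isometry of finite order can be merged along the
cycles of the induced permutation, one class at a time. -/

namespace Vale.Agent.Lib.P058R

open Equiv Equiv.Perm

section Cyc

variable {S C : Type}

/-- Some positive multiple of the data `d2` has the partition property for `ρ ∘ π`. -/
def QQ (d2 : S → S → ℝ) (π : S → C) {Sig : Type} (ρ : C → Sig) : Prop :=
  ∃ lam : ℝ, 0 < lam ∧ PR (fun s t => lam * d2 s t) (fun s => ρ (π s))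

lemma QQ.mono {d2 : S → S → ℝ} {π : S → C} {Sig Sig' : Type} {ρ : C → Sig} {ρ' : C → Sig'}
    (h : QQ d2 π ρ) (hh : ∀ x y, ρ' x = ρ' y → ρ x = ρ y) : QQ d2 π ρ' := by
  obtain ⟨lam, hl, hp⟩ := h
  exact ⟨lam, hl, hp.mono (fun s t hst => hh _ _ hst)⟩

/-- The list of classes read along a permutation. -/
def rdList (m : ℕ) (p : Perm C) {Sig : Type} (ρ : C → Sig) (x : C) : List Sig :=
  List.ofFn (fun i : Fin m => ρ ((p ^ (i : ℕ)) x))

lemma pi_pow {g : Perm S} {p : Perm C} {π : S → C} (hp : ∀ s, π (g s) = p (π s)) (i : ℕ) (s : S) :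
    π ((g ^ i) s) = (p ^ i) (π s) := by
  induction i with
  | zero => simp
  | succ i ih => rw [pow_succ', pow_succ', Perm.mul_apply, Perm.mul_apply, hp, ih]

lemma d2_pow {d2 : S → S → ℝ} {g : Perm S} (hd : ∀ s t, d2 (g s) (g t) = d2 s t) (i : ℕ)
    (s t : S) : d2 ((g ^ i) s) ((g ^ i) t) = d2 s t := by
  induction i with
  | zero => simp
  | succ i ih => rw [pow_succ', Perm.mul_apply, Perm.mul_apply, hd, ih]

/-- One reading step. -/
lemma QQ.read [Finite S] {d2 : S → S → ℝ} {g : Perm S} {p : Perm C} {π : S → C}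
    (hπ : Function.Surjective π) (hp : ∀ s, π (g s) = p (π s))
    (hd : ∀ s t, d2 (g s) (g t) = d2 s t) {m : ℕ} (hm : 0 < m)
    {Sig : Type} [DecidableEq Sig] {ρ : C → Sig} (h : QQ d2 π ρ) (b : C) :
    QQ d2 π (fun x => (rdList m p ρ x).filter (· ≠ ρ b)) := by
  obtain ⟨lam, hl, hP⟩ := h
  obtain ⟨a, rfl⟩ := hπ b
  refine ⟨(m : ℝ) * lam, by positivity, ?_⟩
  have h1 := hP.op m (fun i s => (g ^ (i : ℕ)) s) a
  have h2 : PR (fun s t => (m : ℝ) * lam * d2 s t)
      (fun s => (List.ofFn (fun i : Fin m => ρ (π ((g ^ (i : ℕ)) s)))).filter (· ≠ ρ (π a))) := by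
    refine h1.congr_d2 (fun s t => ?_)
    simp only [d2_pow hd, Finset.sum_const, Finset.card_univ, Fintype.card_fin, nsmul_eq_mul]
    ring
  refine h2.mono (fun s t hst => ?_)
  simp only [pi_pow hp]
  exact hst

/-- Rotation lemma. -/
lemma rd_rot {m : ℕ} (p : Perm C) (hm : p ^ (m + 1) = 1) {Sig : Type} [DecidableEq Sig]
    (ρ : C → Sig) (b : Sig) (x : C) (hx : ρ x = b) :
    (rdList (m + 1) p ρ (p x)).filter (· ≠ b) = (rdList (m + 1) p ρ x).filter (· ≠ b) := by
  unfold rdList
  rw [List.ofFn_succ_last (f := fun i : Fin (m + 1) => ρ ((p ^ (i : ℕ)) (p x))),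
    List.ofFn_succ (f := fun i : Fin (m + 1) => ρ ((p ^ (i : ℕ)) x))]
  have e1 : ((p ^ ((Fin.last m : Fin (m + 1)) : ℕ)) (p x)) = x := by
    have : (p ^ m) (p x) = (p ^ (m + 1)) x := by rw [pow_succ, Perm.mul_apply]
    simp only [Fin.val_last]
    rw [this, hm]
    rfl
  have e2 : (fun i : Fin m => ρ ((p ^ ((Fin.castSucc i : Fin (m + 1)) : ℕ)) (p x))) =
      (fun i : Fin m => ρ ((p ^ ((Fin.succ i : Fin (m + 1)) : ℕ)) x)) := by
    funext i
    simp only [Fin.val_castSucc, Fin.val_succ]
    rw [pow_succ, Perm.mul_apply]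
  simp only [e1, e2, hx, Fin.val_zero, pow_zero, Perm.one_apply]
  simp [List.filter_append]

/-- Arc of a cycle. -/
def arc (p : Perm C) (c0 : C) (k : ℕ) : Set C := {x | ∃ j ≤ k, (p ^ j) c0 = x}

open Classical in
/-- Class function: cycles in `T` are merged; the arc `A` is merged; all others are separate. -/
noncomputable def rhoT (p : Perm C) (T A : Set C) (c0 : C) (x : C) : Set C ⊕ C :=
  if x ∈ T then Sum.inl {c | p.SameCycle x c} else if x ∈ A then Sum.inr c0 else Sum.inr x

open Classical in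
/-- Class function: cycles in `T` are merged; all others are separate. -/
noncomputable def rhoD (p : Perm C) (T : Set C) (x : C) : Set C ⊕ C :=
  if x ∈ T then Sum.inl {c | p.SameCycle x c} else Sum.inr x

lemma mem_pow_iff {p : Perm C} {T : Set C} (hT : ∀ x, x ∈ T ↔ p x ∈ T) (j : ℕ) (x : C) :
    (p ^ j) x ∈ T ↔ x ∈ T := by
  induction j with
  | zero => simp
  | succ j ih => rw [pow_succ', Perm.mul_apply, ← hT, ih]

lemma mem_of_sameCycle [Finite C] {p : Perm C} {T : Set C} (hT : ∀ x, x ∈ T ↔ p x ∈ T) {x y : C}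
    (h : p.SameCycle x y) : x ∈ T ↔ y ∈ T := by
  obtain ⟨i, _, rfl⟩ := h.exists_pow_eq'
  exact (mem_pow_iff hT i x).symm

/-- The arc grows by one class. -/
lemma arc_step [Finite S] [Finite C] {d2 : S → S → ℝ} {g : Perm S} {p : Perm C} {π : S → C}
    (hπ : Function.Surjective π) (hp : ∀ s, π (g s) = p (π s))
    (hd : ∀ s t, d2 (g s) (g t) = d2 s t) {T : Set C} (hT : ∀ x, x ∈ T ↔ p x ∈ T) {c0 : C}
    (hc0 : c0 ∉ T) (k : ℕ) (h : QQ d2 π (rhoT p T (arc p c0 k) c0)) :
    QQ d2 π (rhoT p T (arc p c0 (k + 1)) c0) := by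
  classical
  have hord : 0 < orderOf p := orderOf_pos p
  obtain ⟨m, hm⟩ : ∃ m, orderOf p = m + 1 := ⟨orderOf p - 1, by omega⟩
  have hpm : p ^ (m + 1) = 1 := by rw [← hm]; exact pow_orderOf_eq_one p
  set ρ := rhoT p T (arc p c0 k) c0 with hρ
  have hb : ρ c0 = Sum.inr c0 := by
    simp only [hρ, rhoT]
    rw [if_neg hc0, if_pos]
    exact ⟨0, Nat.zero_le _, by simp⟩
  refine (h.read hπ hp hd (Nat.succ_pos m) c0).mono (fun x y hxy => ?_)
  -- the chain along the arc
  have hchain : ∀ j, j ≤ k + 1 →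
      (rdList (m + 1) p ρ ((p ^ j) c0)).filter (· ≠ ρ c0) =
        (rdList (m + 1) p ρ c0).filter (· ≠ ρ c0) := by
    intro j
    induction j with
    | zero => intro _; simp
    | succ j ih =>
      intro hj
      have hj' : (p ^ j) c0 ∉ T := fun hh => hc0 ((mem_pow_iff hT j c0).mp hh)
      have hmem : (p ^ j) c0 ∈ arc p c0 k := ⟨j, by omega, rfl⟩
      have hval : ρ ((p ^ j) c0) = ρ c0 := by
        rw [hb]
        simp only [hρ, rhoT]
        rw [if_neg hj', if_pos hmem]
      have hrot := rd_rot p hpm ρ (ρ c0) ((p ^ j) c0) hval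
      rw [pow_succ', Perm.mul_apply, hrot]
      exact ih (by omega)
  -- the lists on merged cycles
  have hcyc : ∀ z, z ∈ T → ∀ i : ℕ, ρ ((p ^ i) z) = Sum.inl {c | p.SameCycle z c} := by
    intro z hz i
    simp only [hρ, rhoT]
    rw [if_pos ((mem_pow_iff hT i z).mpr hz)]
    congr 1
    ext c
    exact sameCycle_pow_left
  simp only [rhoT] at hxy
  by_cases hxT : x ∈ T
  · by_cases hyT : y ∈ T
    · rw [if_pos hxT, if_pos hyT] at hxy
      have hset := Sum.inl.inj hxy
      have : rdList (m + 1) p ρ x = rdList (m + 1) p ρ y := by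
        unfold rdList
        congr 1
        funext i
        rw [hcyc x hxT, hcyc y hyT, hset]
      simp only [this]
    · rw [if_pos hxT, if_neg hyT] at hxy
      split_ifs at hxy
  · by_cases hyT : y ∈ T
    · rw [if_neg hxT, if_pos hyT] at hxy
      split_ifs at hxy
    · rw [if_neg hxT, if_neg hyT] at hxy
      by_cases hxA : x ∈ arc p c0 (k + 1)
      · by_cases hyA : y ∈ arc p c0 (k + 1)
        · obtain ⟨j, hj, rfl⟩ := hxA
          obtain ⟨j', hj', rfl⟩ := hyA
          rw [hchain j hj, hchain j' hj']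
        · rw [if_pos hxA, if_neg hyA] at hxy
          have := Sum.inr.inj hxy
          exact (hyA (this ▸ ⟨0, Nat.zero_le _, by simp⟩)).elim
      · by_cases hyA : y ∈ arc p c0 (k + 1)
        · rw [if_neg hxA, if_pos hyA] at hxy
          have := Sum.inr.inj hxy
          exact (hxA (this ▸ ⟨0, Nat.zero_le _, by simp⟩)).elim
        · rw [if_neg hxA, if_neg hyA] at hxy
          rw [Sum.inr.inj hxy]

/-- One whole cycle is merged. -/
lemma cycle_step [Finite S] [Finite C] {d2 : S → S → ℝ} {g : Perm S} {p : Perm C} {π : S → C}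
    (hπ : Function.Surjective π) (hp : ∀ s, π (g s) = p (π s))
    (hd : ∀ s t, d2 (g s) (g t) = d2 s t) {T : Set C} (hT : ∀ x, x ∈ T ↔ p x ∈ T) {c0 : C}
    (hc0 : c0 ∉ T) (h : QQ d2 π (rhoD p T)) :
    QQ d2 π (rhoD p (T ∪ {c | p.SameCycle c0 c})) := by
  classical
  have h0 : QQ d2 π (rhoT p T (arc p c0 0) c0) := by
    refine h.mono (fun x y hxy => ?_)
    have e : ∀ z, rhoT p T (arc p c0 0) c0 z = rhoD p T z := by
      intro z
      simp only [rhoT, rhoD]
      by_cases hz : z ∈ T
      · rw [if_pos hz, if_pos hz]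
      · rw [if_neg hz, if_neg hz]
        by_cases hzA : z ∈ arc p c0 0
        · obtain ⟨j, hj, rfl⟩ := hzA
          have : j = 0 := by omega
          subst this
          simp
        · rw [if_neg hzA]
    rw [← e, ← e]
    exact hxy
  have hall : ∀ k, QQ d2 π (rhoT p T (arc p c0 k) c0) := by
    intro k
    induction k with
    | zero => exact h0
    | succ k ih => exact arc_step hπ hp hd hT hc0 k ih
  refine (hall (orderOf p)).mono (fun x y hxy => ?_)
  simp only [rhoD] at hxy
  simp only [rhoT]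
  have hZarc : ∀ z, p.SameCycle c0 z → z ∈ arc p c0 (orderOf p) := by
    intro z hz
    obtain ⟨i, hi, rfl⟩ := hz.exists_pow_eq'
    exact ⟨i, hi.le, rfl⟩
  by_cases hx : x ∈ T ∪ {c | p.SameCycle c0 c}
  · by_cases hy : y ∈ T ∪ {c | p.SameCycle c0 c}
    · rw [if_pos hx, if_pos hy] at hxy
      have hset := Sum.inl.inj hxy
      have hxy' : p.SameCycle y x := by
        have : x ∈ {c | p.SameCycle x c} := SameCycle.refl p x
        rw [hset] at this
        exact this
      by_cases hxT : x ∈ T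
      · have hyT : y ∈ T := (mem_of_sameCycle hT hxy').mpr hxT
        rw [if_pos hxT, if_pos hyT, hset]
      · have hyT : y ∉ T := fun hh => hxT ((mem_of_sameCycle hT hxy').mp hh)
        have hxZ : p.SameCycle c0 x := hx.resolve_left hxT
        have hyZ : p.SameCycle c0 y := hy.resolve_left hyT
        rw [if_neg hxT, if_neg hyT, if_pos (hZarc x hxZ), if_pos (hZarc y hyZ)]
    · rw [if_pos hx, if_neg hy] at hxy
      exact (Sum.inl_ne_inr hxy).elim
  · by_cases hy : y ∈ T ∪ {c | p.SameCycle c0 c}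
    · rw [if_neg hx, if_pos hy] at hxy
      exact (Sum.inr_ne_inl hxy).elim
    · rw [if_neg hx, if_neg hy] at hxy
      rw [Sum.inr.inj hxy]

/-- All cycles are merged. -/
theorem cyc_main [Finite S] [Finite C] {d2 : S → S → ℝ} {g : Perm S} {p : Perm C} {π : S → C}
    (hπ : Function.Surjective π) (hp : ∀ s, π (g s) = p (π s))
    (hd : ∀ s t, d2 (g s) (g t) = d2 s t) (h : QQ d2 π (fun x => x)) :
    QQ d2 π (fun x => {c | p.SameCycle x c}) := by
  classical
  have key : ∀ n : ℕ, ∀ T : Set C, Tᶜ.ncard ≤ n → (∀ x, x ∈ T ↔ p x ∈ T) → QQ d2 π (rhoD p T) →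
      QQ d2 π (rhoD p Set.univ) := by
    intro n
    induction n with
    | zero =>
      intro T hc _ hQ
      have hTc : Tᶜ = ∅ := by
        have : Tᶜ.ncard = 0 := by omega
        exact (Set.ncard_eq_zero (Set.toFinite _)).mp this
      have hT : T = Set.univ := by simpa using hTc
      rw [← hT]
      exact hQ
    | succ n ih =>
      intro T hc hT hQ
      by_cases hu : T = Set.univ
      · rw [← hu]
        exact hQ
      · obtain ⟨c0, hc0⟩ : ∃ c0, c0 ∉ T := by
          by_contra hh
          push Not at hh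
          exact hu (Set.eq_univ_of_forall hh)
        refine ih (T ∪ {c | p.SameCycle c0 c}) ?_ ?_ (cycle_step hπ hp hd hT hc0 hQ)
        · have hlt : (T ∪ {c | p.SameCycle c0 c})ᶜ.ncard < Tᶜ.ncard := by
            apply Set.ncard_lt_ncard _ (Set.toFinite _)
            refine ⟨?_, ?_⟩
            · intro z hz hzT
              exact hz (Or.inl hzT)
            · intro hsub
              have : c0 ∈ (T ∪ {c | p.SameCycle c0 c})ᶜ := hsub hc0
              exact this (Or.inr (SameCycle.refl p c0))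
          omega
        · intro x
          constructor
          · rintro (hx | hx)
            · exact Or.inl ((hT x).mp hx)
            · exact Or.inr (sameCycle_apply_right.mpr hx)
          · rintro (hx | hx)
            · exact Or.inl ((hT x).mpr hx)
            · exact Or.inr (sameCycle_apply_right.mp hx)
  have h0 : QQ d2 π (rhoD p ∅) := by
    refine h.mono (fun x y hxy => ?_)
    simpa [rhoD] using hxy
  have h1 := key _ ∅ le_rfl (fun x => by simp) h0
  refine h1.mono (fun x y hxy => ?_)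
  simp only [rhoD, Set.mem_univ, if_true]
  rw [hxy]

end Cyc

end Vale.Agent.Lib.P058R
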