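import Mathlib
import Vale.Agent.Lib.P058R.Arr

/-! From the partition property to Euclidean Ramsey sets. -/

namespace Vale.Agent.Lib.P058R

open Equiv

/-- A set `A` in a Euclidean space is Ramsey: for every number `r ≥ 2` of colours there is
`D ≥ 1` such that every `r`-colouring of `ℝ^D` is constant on the image of `A` under some map
preserving all distances on `A`. -/
def IsRamsey {ι : Type} [Fintype ι] (A : Set (EuclideanSpace ℝ ι)) : Prop :=
  ∀ r : ℕ, 2 ≤ r → ∃ D : ℕ, 1 ≤ D ∧ ∀ c : EuclideanSpace ℝ (Fin D) → Fin r,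
    ∃ f : EuclideanSpace ℝ ι → EuclideanSpace ℝ (Fin D),
      (∀ x ∈ A, ∀ y ∈ A, dist (f x) (f y) = dist x y) ∧ ∃ k, ∀ x ∈ A, c (f x) = k

/-- Transfer along a map preserving distances on `B` and sending `B` into `A`. -/
lemma IsRamsey.of_map {ι ι' : Type} [Fintype ι] [Fintype ι'] {A : Set (EuclideanSpace ℝ ι)}
    {B : Set (EuclideanSpace ℝ ι')} (h : EuclideanSpace ℝ ι' → EuclideanSpace ℝ ι)
    (hmap : ∀ x ∈ B, h x ∈ A) (hd : ∀ x ∈ B, ∀ y ∈ B, dist (h x) (h y) = dist x y)
    (hA : IsRamsey A) : IsRamsey B := by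
  intro r hr
  obtain ⟨D, hD, H⟩ := hA r hr
  refine ⟨D, hD, fun c => ?_⟩
  obtain ⟨f, hf, k, hk⟩ := H c
  refine ⟨f ∘ h, fun x hx y hy => ?_, k, fun x hx => hk _ (hmap x hx)⟩
  simp only [Function.comp]
  rw [hf _ (hmap x hx) _ (hmap y hy), hd x hx y hy]

lemma dist_eq_sqrt_sq {ι : Type} [Fintype ι] (x y : EuclideanSpace ℝ ι) :
    dist x y = Real.sqrt (sq (fun i => x i) (fun i => y i)) := by
  rw [EuclideanSpace.dist_eq]
  congr 1
  refine Finset.sum_congr rfl (fun i _ => ?_)
  rw [Real.dist_eq, sq_abs]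

/-- Scaled embedding of a coordinate space into `ℝ^(N+1)`. -/
noncomputable def scaledEmb {ι : Type} [Fintype ι] (s : ℝ) (y : ι → ℝ) :
    EuclideanSpace ℝ (Fin (Fintype.card ι + 1)) :=
  WithLp.toLp 2 (Fin.snoc (α := fun _ => ℝ) (fun j => s * y ((Fintype.equivFin ι).symm j)) 0)

lemma dist_scaledEmb {ι : Type} [Fintype ι] (s : ℝ) (y y' : ι → ℝ) :
    dist (scaledEmb s y) (scaledEmb s y') = Real.sqrt (s ^ 2 * sq y y') := by
  rw [dist_eq_sqrt_sq]
  congr 1
  unfold sq
  rw [Fin.sum_univ_castSucc]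
  simp only [scaledEmb, Fin.snoc_castSucc, Fin.snoc_last, sub_self]
  rw [Finset.mul_sum, ← Equiv.sum_comp (Fintype.equivFin ι).symm (fun i => s ^ 2 * (y i - y' i) ^ 2)]
  simp only [ne_eq, OfNat.ofNat_ne_zero, not_false_eq_true, zero_pow, add_zero]
  refine Finset.sum_congr rfl (fun i _ => ?_)
  ring

/-- The partition property with one class gives a Ramsey set. -/
theorem isRamsey_of_PR {T ι : Type} [Fintype ι] (E : T → ι → ℝ) {lam : ℝ} (hlam : 0 < lam)
    (h : PR (fun t t' => lam * sq (E t) (E t')) (fun _ => ()))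
    (A : Set (EuclideanSpace ℝ ι)) (hA : ∀ x ∈ A, ∃ t, ∀ i, x i = E t i) : IsRamsey A := by
  classical
  intro r hr
  obtain ⟨ι', hι', W, _, hc⟩ := h (Fin r)
  refine ⟨Fintype.card ι' + 1, by omega, fun c => ?_⟩
  let s : ℝ := Real.sqrt (1 / lam)
  have hs : s ^ 2 = 1 / lam := Real.sq_sqrt (by positivity)
  obtain ⟨f, _, hf2, hf3⟩ := hc (fun y => c (scaledEmb s y))
  let pick : EuclideanSpace ℝ ι → EuclideanSpace ℝ (Fin (Fintype.card ι' + 1)) := fun x =>
    if hx : ∃ t, ∀ i, x i = E t i then scaledEmb s (f hx.choose) else 0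
  have hpick : ∀ x ∈ A, ∃ t, (∀ i, x i = E t i) ∧ pick x = scaledEmb s (f t) := by
    intro x hx
    have hx' := hA x hx
    exact ⟨hx'.choose, hx'.choose_spec, dif_pos hx'⟩
  refine ⟨pick, ?_, ?_⟩
  · intro x hx y hy
    obtain ⟨t, ht, ht'⟩ := hpick x hx
    obtain ⟨t', ht2, ht2'⟩ := hpick y hy
    rw [ht', ht2', dist_scaledEmb, hf2, dist_eq_sqrt_sq, hs]
    congr 1
    have e1 : (fun i => x i) = E t := funext ht
    have e2 : (fun i => y i) = E t' := funext ht2
    rw [e1, e2]
    field_simp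
  · by_cases hne : A.Nonempty
    · obtain ⟨x₀, hx₀⟩ := hne
      obtain ⟨t₀, _, ht₀⟩ := hpick x₀ hx₀
      refine ⟨c (pick x₀), fun x hx => ?_⟩
      obtain ⟨t, _, ht⟩ := hpick x hx
      rw [ht, ht₀]
      exact hf3 t t₀ rfl
    · refine ⟨⟨0, by omega⟩, fun x hx => (hne ⟨x, hx⟩).elim⟩

variable {n : ℕ} {κ : Type} [Fintype κ]

/-- The full sign orbit: all points of `(ℝ^κ)^n` whose `i`-th block is `± u (r (σ i))` for a
permutation `σ`. -/
def signedOrbit (u : Fin 3 → κ → ℝ) (r : Fin n → Fin 3) :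
    Set (EuclideanSpace ℝ (Fin n × κ)) :=
  {y | ∃ σ : Perm (Fin n), ∀ i,
    (∀ j, y (i, j) = u (r (σ i)) j) ∨ (∀ j, y (i, j) = - u (r (σ i)) j)}

/-- The permutation orbit of a tuple of points of `ℝ^κ`. -/
def letterOrbit (p : Fin n → κ → ℝ) : Set (EuclideanSpace ℝ (Fin n × κ)) :=
  {y | ∃ σ : Perm (Fin n), ∀ i j, y (i, j) = p (σ i) j}

/-- The permutation orbit of a real vector. -/
def realOrbit (x : Fin n → ℝ) : Set (EuclideanSpace ℝ (Fin n)) :=
  {y | ∃ σ : Perm (Fin n), ∀ i, y i = x (σ i)}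

/-- Concatenation of an arrangement. -/
def concat (u : Fin 3 → κ → ℝ) (t : Fin n → Bool × Fin 3) : Fin n × κ → ℝ :=
  fun q => sgn u (t q.1) q.2

lemma sq_concat (u : Fin 3 → κ → ℝ) (t t' : Fin n → Bool × Fin 3) :
    sq (concat u t) (concat u t') = dArr u t t' := by
  simp [sq, dArr, concat, Fintype.sum_prod_type]

/-- The sign orbit is Ramsey under the radius condition. -/
theorem signedOrbit_isRamsey (u : Fin 3 → κ → ℝ) (r : Fin n → Fin 3) (hr : RadCond r) :
    IsRamsey (signedOrbit u r) := by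
  classical
  obtain ⟨lam, hlam, h⟩ := arr_main u r hr
  refine isRamsey_of_PR (T := Arr r) (fun t => concat u t.1) hlam ?_ _ ?_
  · refine h.congr_d2 (fun t t' => ?_)
    rw [sq_concat]
  · intro x hx
    obtain ⟨σ, hσ⟩ := hx
    let t : Fin n → Bool × Fin 3 := fun i =>
      (decide (∀ j, x (i, j) = u (r (σ i)) j), r (σ i))
    refine ⟨⟨t, σ, fun i => rfl⟩, ?_⟩
    rintro ⟨i, j⟩
    by_cases hi : ∀ j, x (i, j) = u (r (σ i)) j
    · simp [concat, sgn, t, hi]
    · have h2 := (hσ i).resolve_left hi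
      simp only [concat, sgn, t]
      rw [if_neg (by simpa using hi)]
      exact h2 j

/-- Centre trick: a tuple of points which lies, up to the translation by `μ`, in a sign orbit. -/
theorem letterOrbit_isRamsey (p : Fin n → κ → ℝ) (μ : κ → ℝ) (u : Fin 3 → κ → ℝ)
    (r : Fin n → Fin 3) (hr : RadCond r)
    (hp : ∀ i, (∀ j, p i j = μ j + u (r i) j) ∨ (∀ j, p i j = μ j - u (r i) j)) :
    IsRamsey (letterOrbit p) := by
  refine IsRamsey.of_map (A := signedOrbit u r)
    (fun y => WithLp.toLp 2 (fun q => y q - μ q.2)) ?_ ?_ (signedOrbit_isRamsey u r hr)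
  · rintro y ⟨σ, hσ⟩
    refine ⟨σ, fun i => ?_⟩
    rcases hp (σ i) with h | h
    · left
      intro j
      simp [hσ, h]
    · right
      intro j
      simp [hσ, h]
  · intro x _ y _
    rw [dist_eq_sqrt_sq, dist_eq_sqrt_sq]
    congr 1
    unfold sq
    refine Finset.sum_congr rfl (fun q _ => ?_)
    simp

/-- Real form of the centre trick. -/
theorem realOrbit_isRamsey (x : Fin n → ℝ) (μ : ℝ) (v : Fin 3 → ℝ)
    (r : Fin n → Fin 3) (hr : RadCond r)
    (hx : ∀ i, x i = μ + v (r i) ∨ x i = μ - v (r i)) :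
    IsRamsey (realOrbit x) := by
  have h1 : IsRamsey (letterOrbit (κ := Unit) (fun i _ => x i)) :=
    letterOrbit_isRamsey (fun i _ => x i) (fun _ => μ) (fun k _ => v k) r hr (fun i => by
      rcases hx i with h | h
      · exact Or.inl (fun _ => h)
      · exact Or.inr (fun _ => h))
  refine IsRamsey.of_map (A := letterOrbit (κ := Unit) (fun i _ => x i))
    (fun y => WithLp.toLp 2 (fun q => y q.1)) ?_ ?_ h1
  · rintro y ⟨σ, hσ⟩
    exact ⟨σ, fun i _ => hσ i⟩
  · intro a _ b _
    rw [dist_eq_sqrt_sq, dist_eq_sqrt_sq]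
    congr 1
    simp [sq, Fintype.sum_prod_type]

/-- Every tuple of points from a three-point set has a Ramsey permutation orbit. -/
theorem letterOrbit_three (p : Fin n → κ → ℝ) (a b c : κ → ℝ)
    (hp : ∀ i, p i = a ∨ p i = b ∨ p i = c) : IsRamsey (letterOrbit p) := by
  classical
  let μ : κ → ℝ := fun j => (a j + b j) / 2
  let u : Fin 3 → κ → ℝ := ![fun j => (a j - b j) / 2, fun j => c j - μ j, 0]
  let r : Fin n → Fin 3 := fun i => if p i = a ∨ p i = b then 0 else 1
  refine letterOrbit_isRamsey p μ u r (Or.inl (fun i => ?_)) (fun i => ?_)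
  · simp only [r]
    split_ifs <;> decide
  · by_cases h : p i = a ∨ p i = b
    · have hr : r i = 0 := if_pos h
      rw [hr]
      rcases h with h | h
      · left
        intro j
        simp [h, u, μ]
        ring
      · right
        intro j
        simp [h, u, μ]
        ring
    · have hr : r i = 1 := if_neg h
      rw [hr]
      left
      intro j
      have hc : p i = c := by
        rcases hp i with h1 | h1 | h1
        · exact (h (Or.inl h1)).elim
        · exact (h (Or.inr h1)).elim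
        · exact h1
      simp [hc, u]

/-- Every real vector with entries in a three-element set has a Ramsey permutation orbit. -/
theorem realOrbit_three (x : Fin n → ℝ) (a b c : ℝ)
    (hx : ∀ i, x i = a ∨ x i = b ∨ x i = c) : IsRamsey (realOrbit x) := by
  classical
  let r : Fin n → Fin 3 := fun i => if x i = a ∨ x i = b then 0 else 1
  refine realOrbit_isRamsey x ((a + b) / 2) ![(a - b) / 2, c - (a + b) / 2, 0] r
    (Or.inl (fun i => ?_)) (fun i => ?_)
  · simp only [r]
    split_ifs <;> decide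
  · by_cases h : x i = a ∨ x i = b
    · have hr : r i = 0 := if_pos h
      rw [hr]
      rcases h with h | h
      · left
        simp [h]
        ring
      · right
        simp [h]
        ring
    · have hr : r i = 1 := if_neg h
      rw [hr]
      left
      have hc : x i = c := by
        rcases hx i with h1 | h1 | h1
        · exact (h (Or.inl h1)).elim
        · exact (h (Or.inr h1)).elim
        · exact h1
      simp [hc]

end Vale.Agent.Lib.P058R
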