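import Mathlib
import Vale.Agent.Lib.P058R.Cyc

/-! Soluble groups of isometries: orbits are merged along the derived series. -/

namespace Vale.Agent.Lib.P058R

open Equiv Equiv.Perm
open scoped commutatorElement

section Sol

variable {H S : Type} [Group H] (φ : H →* Perm S)

/-- The orbit of `s` under the subgroup `K`, acting through `φ`. -/
def orbK (K : Subgroup H) (s : S) : Set S := {t | ∃ h ∈ K, φ h s = t}

lemma mem_orbK_self (K : Subgroup H) (s : S) : s ∈ orbK φ K s := ⟨1, K.one_mem, by simp⟩

lemma orbK_eq_iff (K : Subgroup H) (s t : S) :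
    orbK φ K s = orbK φ K t ↔ ∃ h ∈ K, φ h s = t := by
  constructor
  · intro e
    have : t ∈ orbK φ K s := e ▸ mem_orbK_self φ K t
    exact this
  · rintro ⟨h, hh, rfl⟩
    ext x
    constructor
    · rintro ⟨k, hk, rfl⟩
      refine ⟨k * h⁻¹, K.mul_mem hk (K.inv_mem hh), ?_⟩
      rw [← Perm.mul_apply, ← map_mul]
      simp
    · rintro ⟨k, hk, rfl⟩
      refine ⟨k * h, K.mul_mem hk hh, ?_⟩
      rw [map_mul, Perm.mul_apply]

/-- The partition property for the orbits of `K`. -/
def OrbP (d2 : S → S → ℝ) (K : Subgroup H) : Prop :=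
  ∃ lam : ℝ, 0 < lam ∧ PR (fun s t => lam * d2 s t) (orbK φ K)

/-- The cyclic step: adjoin an element normalising `M`. -/
theorem orb_step [Finite S] {d2 : S → S → ℝ} (hd : ∀ (h : H) (s t : S), d2 (φ h s) (φ h t) = d2 s t)
    (M : Subgroup H) (g : H) (hg : ∀ b ∈ M, g * b * g⁻¹ ∈ M) (hg' : ∀ b ∈ M, g⁻¹ * b * g ∈ M)
    (h : OrbP φ d2 M) : OrbP φ d2 (M ⊔ Subgroup.zpowers g) := by
  classical
  let R : Setoid S := Setoid.ker (orbK φ M)
  let π : S → Quotient R := Quotient.mk R
  have hR : ∀ a b, R a b ↔ ∃ h ∈ M, φ h a = b := fun a b => orbK_eq_iff φ M a b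
  have hcompat : ∀ a b, R a b ↔ R (φ g a) (φ g b) := by
    intro a b
    rw [hR, hR]
    constructor
    · rintro ⟨h, hh, rfl⟩
      refine ⟨g * h * g⁻¹, hg h hh, ?_⟩
      simp [map_mul, Perm.mul_apply]
    · rintro ⟨h, hh, he⟩
      refine ⟨g⁻¹ * h * g, hg' h hh, ?_⟩
      simp only [map_mul, Perm.mul_apply, map_inv]
      rw [he]
      simp
  let p : Perm (Quotient R) := Quotient.congr (φ g) hcompat
  have hπ : Function.Surjective π := Quotient.mk_surjective
  have hp : ∀ s, π (φ g s) = p (π s) := fun s => rfl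
  have hQ : QQ d2 π (fun x => x) := by
    obtain ⟨lam, hl, hP⟩ := h
    refine ⟨lam, hl, hP.mono (fun s t hst => ?_)⟩
    exact Quotient.exact hst
  obtain ⟨lam, hl, hP⟩ := cyc_main hπ hp (hd g) hQ
  refine ⟨lam, hl, hP.mono (fun s t hst => ?_)⟩
  obtain ⟨h, hh, rfl⟩ := (orbK_eq_iff φ _ s t).mp hst
  let L : Subgroup H :=
    { carrier := {h | ∀ s, p.SameCycle (π s) (π (φ h s))}
      mul_mem' := by
        intro a b ha hb s
        have h1 := hb s
        have h2 := ha (φ b s)
        have e : φ (a * b) s = φ a (φ b s) := by rw [map_mul, Perm.mul_apply]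
        rw [e]
        exact h1.trans h2
      one_mem' := by
        intro s
        simp only [map_one, Perm.one_apply]
        exact SameCycle.refl _ _
      inv_mem' := by
        intro a ha s
        have h1 := ha (φ a⁻¹ s)
        have e : φ a (φ a⁻¹ s) = s := by
          rw [← Perm.mul_apply, ← map_mul]
          simp
        rw [e] at h1
        exact h1.symm }
  have hML : M ≤ L := by
    intro b hb s
    have : π (φ b s) = π s := by
      apply Quotient.sound
      exact (hR _ _).mpr ⟨b⁻¹, M.inv_mem hb, by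
        rw [← Perm.mul_apply, ← map_mul]
        simp⟩
    rw [this]
  have hgL : g ∈ L := by
    intro s
    rw [hp]
    exact sameCycle_apply_right.mpr (SameCycle.refl _ _)
  have hle : M ⊔ Subgroup.zpowers g ≤ L := sup_le hML (Subgroup.zpowers_le.mpr hgL)
  have hsc : p.SameCycle (π s) (π (φ h s)) := hle hh s
  ext c
  constructor
  · intro hc
    exact hsc.symm.trans hc
  · intro hc
    exact hsc.trans hc

/-- From the commutator subgroup of `K` to `K`. -/
theorem orb_comm [Finite S] [Finite H] {d2 : S → S → ℝ}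
    (hd : ∀ (h : H) (s t : S), d2 (φ h s) (φ h t) = d2 s t)
    (K : Subgroup H) (h : OrbP φ d2 ⁅K, K⁆) : OrbP φ d2 K := by
  classical
  have hcK : ⁅K, K⁆ ≤ K := Subgroup.commutator_le.mpr (fun a ha b hb =>
    K.mul_mem (K.mul_mem (K.mul_mem ha hb) (K.inv_mem ha)) (K.inv_mem hb))
  have key : ∀ F : Finset H, (∀ g ∈ F, g ∈ K) →
      OrbP φ d2 (⁅K, K⁆ ⊔ Subgroup.closure (F : Set H)) := by
    intro F
    induction F using Finset.induction_on with
    | empty =>
      intro _
      simpa using h
    | insert g F _ ih =>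
      intro hF
      have hB := ih (fun x hx => hF x (Finset.mem_insert_of_mem hx))
      have hgK : g ∈ K := hF g (Finset.mem_insert_self _ _)
      set B : Subgroup H := ⁅K, K⁆ ⊔ Subgroup.closure (F : Set H) with hBdef
      have hBK : B ≤ K := sup_le hcK ((Subgroup.closure_le _).mpr
        (fun x hx => hF x (Finset.mem_insert_of_mem (by simpa using hx))))
      have hcomm : ⁅K, K⁆ ≤ B := le_sup_left
      have hg : ∀ b ∈ B, g * b * g⁻¹ ∈ B := by
        intro b hb
        have h1 : ⁅g, b⁆ ∈ ⁅K, K⁆ := Subgroup.commutator_mem_commutator hgK (hBK hb)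
        have h2 := B.mul_mem (hcomm h1) hb
        simpa [commutatorElement_def] using h2
      have hg' : ∀ b ∈ B, g⁻¹ * b * g ∈ B := by
        intro b hb
        have h1 : ⁅g⁻¹, b⁆ ∈ ⁅K, K⁆ :=
          Subgroup.commutator_mem_commutator (K.inv_mem hgK) (hBK hb)
        have h2 := B.mul_mem (hcomm h1) hb
        simpa [commutatorElement_def] using h2
      have h3 := orb_step φ hd B g hg hg' hB
      have e : ⁅K, K⁆ ⊔ Subgroup.closure ((insert g F : Finset H) : Set H) =
          B ⊔ Subgroup.zpowers g := by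
        rw [Finset.coe_insert, Set.insert_eq, Subgroup.closure_union, hBdef,
          Subgroup.zpowers_eq_closure]
        rw [sup_comm (Subgroup.closure {g}), sup_assoc]
      rw [e]
      exact h3
  have h4 := key (Set.toFinite (K : Set H)).toFinset (fun g hg => by simpa using hg)
  have e2 : ⁅K, K⁆ ⊔ Subgroup.closure (((Set.toFinite (K : Set H)).toFinset : Finset H) : Set H)
      = K := by
    rw [Set.Finite.coe_toFinset, Subgroup.closure_eq]
    exact sup_eq_right.mpr hcK
  rw [e2] at h4
  exact h4

/-- A soluble group: all orbits are merged. -/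
theorem orb_top [Finite S] [Finite H] [Group.IsSolvable H] {d2 : S → S → ℝ}
    (hd : ∀ (h : H) (s t : S), d2 (φ h s) (φ h t) = d2 s t)
    (h0 : PR d2 (fun s => s)) : OrbP φ d2 ⊤ := by
  obtain ⟨n, hn⟩ := (Group.isSolvable_def H).mp ‹_›
  have key : ∀ j k, j + k = n → OrbP φ d2 (derivedSeries H k) := by
    intro j
    induction j with
    | zero =>
      intro k hk
      have : k = n := by omega
      rw [this, hn]
      refine ⟨1, one_pos, ?_⟩
      have h1 : PR (fun s t => (1 : ℝ) * d2 s t) (fun s => s) :=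
        h0.congr_d2 (fun s t => by ring)
      refine h1.mono (fun s t hst => ?_)
      obtain ⟨h, hh, rfl⟩ := (orbK_eq_iff φ _ s t).mp hst
      have : h = 1 := by simpa using hh
      simp [this]
    | succ j ih =>
      intro k hk
      have h1 := ih (k + 1) (by omega)
      rw [derivedSeries_succ] at h1
      exact orb_comm φ hd _ h1
  simpa using key n 0 (by omega)

end Sol

end Vale.Agent.Lib.P058R
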