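import Mathlib
import Vale.Agent.Lib.P058R.Final
import Vale.Agent.Lib.P058R.Sol
import Vale.Agent.Lib.P058R.ArrG

/-! Arrangements of orbits of a finite soluble group of isometries. -/

namespace Vale.Agent.Lib.P058R

open Equiv

section

variable {κ : Type} [Fintype κ] {n : ℕ}

/-- The action of a group on its letter set `G × Fin 3`. -/
def letterHom (G : Type) [Group G] : G →* Perm (G × Fin 3) where
  toFun h := Equiv.prodCongr (Equiv.mulLeft h) (Equiv.refl _)
  map_one' := by
    ext x <;> simp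
  map_mul' a b := by
    ext x <;> simp [mul_assoc]

/-- The arrangement of the `H`-orbits of the points `u (r i)`: all points of `(ℝ^κ)^n` whose
`i`-th block lies in the `H`-orbit of `u (r (σ i))`, for some permutation `σ` of the positions. -/
def orbitArrangement (H : Subgroup (EuclideanSpace ℝ κ ≃ᵢ EuclideanSpace ℝ κ))
    (u : Fin 3 → EuclideanSpace ℝ κ) (r : Fin n → Fin 3) :
    Set (EuclideanSpace ℝ (Fin n × κ)) :=
  {y | ∃ σ : Perm (Fin n), ∀ i, ∃ h ∈ H, ∀ j, y (i, j) = (h (u (r (σ i)))) j}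

/-- The letter embedding. -/
noncomputable def letterEmb (H : Subgroup (EuclideanSpace ℝ κ ≃ᵢ EuclideanSpace ℝ κ))
    (u : Fin 3 → EuclideanSpace ℝ κ) (a : H × Fin 3) : κ → ℝ :=
  fun j => ((a.1 : EuclideanSpace ℝ κ ≃ᵢ EuclideanSpace ℝ κ) (u a.2)) j

lemma sq_eq_dist_sq {ι : Type} [Fintype ι] (x y : EuclideanSpace ℝ ι) :
    sq (fun i => x i) (fun i => y i) = dist x y ^ 2 := by
  rw [dist_eq_sqrt_sq, Real.sq_sqrt]
  exact Finset.sum_nonneg (fun i _ => sq_nonneg _)

lemma letterEmb_inv (H : Subgroup (EuclideanSpace ℝ κ ≃ᵢ EuclideanSpace ℝ κ))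
    (u : Fin 3 → EuclideanSpace ℝ κ) (h : H) (s t : H × Fin 3) :
    sq (letterEmb H u (letterHom H h s)) (letterEmb H u (letterHom H h t)) =
      sq (letterEmb H u s) (letterEmb H u t) := by
  unfold letterEmb
  rw [sq_eq_dist_sq, sq_eq_dist_sq]
  simp only [letterHom, MonoidHom.coe_mk, OneHom.coe_mk, Equiv.prodCongr_apply, Prod.map_fst,
    Prod.map_snd, Equiv.coe_refl, id_eq, Equiv.coe_mulLeft, Subgroup.coe_mul,
    IsometryEquiv.mul_apply]
  rw [(h : EuclideanSpace ℝ κ ≃ᵢ EuclideanSpace ℝ κ).dist_eq]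

/-- The letter level: the radius classes have the partition property. -/
theorem letters_soluble (H : Subgroup (EuclideanSpace ℝ κ ≃ᵢ EuclideanSpace ℝ κ)) [Finite H]
    [Group.IsSolvable H] (u : Fin 3 → EuclideanSpace ℝ κ) :
    ∃ lam : ℝ, 0 < lam ∧ PR (fun s t : H × Fin 3 =>
      lam * sq (letterEmb H u s) (letterEmb H u t)) (fun s => s.2) := by
  obtain ⟨lam, hl, hP⟩ := orb_top (letterHom H)
    (d2 := fun s t => sq (letterEmb H u s) (letterEmb H u t))
    (letterEmb_inv H u) (PR.base (letterEmb H u))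
  refine ⟨lam, hl, hP.mono (fun s t hst => ?_)⟩
  refine (orbK_eq_iff _ _ s t).mpr ⟨t.1 * s.1⁻¹, Subgroup.mem_top _, ?_⟩
  rcases s with ⟨a, x⟩
  rcases t with ⟨b, y⟩
  have hxy : x = y := hst
  subst hxy
  simp [letterHom]

/-- Concatenation of an arrangement. -/
def concatG {L : Type} (e : L → κ → ℝ) (t : Fin n → L) : Fin n × κ → ℝ :=
  fun q => e (t q.1) q.2

lemma sq_concatG {L : Type} (e : L → κ → ℝ) (t t' : Fin n → L) :
    sq (concatG e t) (concatG e t') = dG e t t' := by
  simp [sq, dG, concatG, Fintype.sum_prod_type]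

/-- Main theorem: arrangements of orbits of a finite soluble group of isometries are Ramsey under
the radius condition. -/
theorem orbitArrangement_isRamsey (H : Subgroup (EuclideanSpace ℝ κ ≃ᵢ EuclideanSpace ℝ κ))
    [Finite H] [Group.IsSolvable H] (u : Fin 3 → EuclideanSpace ℝ κ) (r : Fin n → Fin 3)
    (hr : RadCond r) : IsRamsey (orbitArrangement H u r) := by
  classical
  obtain ⟨lamL, hl, hL⟩ := letters_soluble H u
  obtain ⟨lam, hlam, h⟩ := arrG_main (L := H × Fin 3) (letterEmb H u) hl hL (fun x => (1, x))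
    (fun _ => rfl) r hr
  refine isRamsey_of_PR (T := ArrG (fun s : H × Fin 3 => s.2) r)
    (fun t => concatG (letterEmb H u) t.1) hlam ?_ _ ?_
  · refine h.congr_d2 (fun t t' => ?_)
    rw [sq_concatG]
  · intro x hx
    obtain ⟨σ, hσ⟩ := hx
    choose a ha ha' using hσ
    let t : Fin n → H × Fin 3 := fun i => (⟨a i, ha i⟩, r (σ i))
    refine ⟨⟨t, σ, fun i => rfl⟩, ?_⟩
    rintro ⟨i, j⟩
    simp only [concatG, letterEmb, t]
    exact ha' i j

/-- Case `n = 1` (Kříž): an orbit of a finite soluble group of isometries is Ramsey. -/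
theorem soluble_orbit_isRamsey (H : Subgroup (EuclideanSpace ℝ κ ≃ᵢ EuclideanSpace ℝ κ))
    [Finite H] [Group.IsSolvable H] (p : EuclideanSpace ℝ κ) :
    IsRamsey {y : EuclideanSpace ℝ κ | ∃ h ∈ H, y = h p} := by
  have h1 := orbitArrangement_isRamsey (n := 1) H (fun _ => p) (fun _ => 0)
    (Or.inl (fun _ => by simp))
  refine IsRamsey.of_map (A := orbitArrangement (n := 1) H (fun _ => p) (fun _ => 0))
    (fun y => WithLp.toLp 2 (fun q => y q.2)) ?_ ?_ h1
  · rintro y ⟨h, hh, rfl⟩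
    exact ⟨1, fun i => ⟨h, hh, fun j => rfl⟩⟩
  · intro a _ b _
    rw [dist_eq_sqrt_sq, dist_eq_sqrt_sq]
    congr 1
    simp [sq, Fintype.sum_prod_type]

end

end Vale.Agent.Lib.P058R
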